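import Vale.Agent.P139.H472.Cover

/-!
Kernel certificate on the upper half of the boundary of `[-1/20, 11/4] × [-5, 5]`, `l = 0`.
-/

namespace Vale.Agent.P139.H472

set_option maxRecDepth 100000 in
lemma c0L0 : run (cL 0 464433711572582 8) 0 [
    60, 125, 195, 277, 369, 473, 586, 708, 836, 965, 1095, 1221, 1343, 1456, 1565, 1665, 1754,
    1836, 1908, 1974, 2031, 2081, 2125, 2163, 2197, 2226] = true := by
  decide +kernel

set_option maxRecDepth 100000 in
lemma c0L1 : run (cL 0 464433711572582 8) 2226 [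
    2251, 2273, 2292, 2308, 2322, 2334, 2344, 2353, 2361, 2368, 2374, 2380, 2386, 2391, 2396,
    2401, 2406, 2411, 2417, 2423, 2430, 2438, 2447, 2457, 2468, 2481] = true := by
  decide +kernel

set_option maxRecDepth 100000 in
lemma c0L2 : run (cL 0 464433711572582 8) 2481 [
    2496, 2513, 2532, 2554, 2579, 2608, 2640, 2676, 2717, 2761, 2810, 2863, 2922, 2985, 3052,
    3122, 3198, 3277, 3359, 3444, 3533, 3626, 3723, 3825, 3928, 4035] = true := by
  decide +kernel

set_option maxRecDepth 100000 in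
lemma c0L3 : run (cL 0 464433711572582 8) 4035 [
    4147, 4264, 4382, 4505, 4634, 4769, 4911, 5054, 5203, 5359, 5522, 5693, 5873, 6062, 6260,
    6468, 6687, 6917, 7159, 7413, 7690, 7982, 8289, 8613, 8954, 9313] = true := by
  decide +kernel

set_option maxRecDepth 100000 in
lemma c0L4 : run (cL 0 464433711572582 8) 9313 [
    9691, 10104, 10539, 10997, 11480, 11989, 12525, 13090, 13686, 14314, 14951, 15623, 16304,
    16967, 17639, 18265, 18874, 19442, 19949, 20413, 20480] = true := by
  decide +kernel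

set_option maxRecDepth 100000 in
lemma c0T0 : run (cT 0 464433711572582 8) 0 [
    260, 598, 1037, 1607, 2278, 3041, 3908, 4858, 5938, 7122, 8420, 9843, 11418, 11469] = true := by
  decide +kernel

set_option maxRecDepth 100000 in
lemma c0R0 : run (cR 0 464433711572582 8) 0 [
    260, 598, 1037, 1607, 2348, 3311, 4562, 5984, 7485, 9070, 10679, 12377, 14170, 15989,
    17835, 19634, 20480] = true := by
  decide +kernel

lemma kap0 : |(33 / 20 : ℝ) * SR - (464433711572582 : Int)| ≤ 1 := by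
  unfold SR
  rw [abs_le]
  constructor <;> norm_num

lemma side0L {w ρ : ℝ} (hB : BoxW w ρ) {lam : ℂ} (hre : lam.re = -1 / 20) (h1 : 0 ≤ lam.im) (h2 : lam.im ≤ 5) :
    Good 0 (33 / 20) w ρ lam := by
  by_cases h0 : lam.im ≤ (2226 : ℝ) / 4096
  · exact sound_L kap0 hB (by simp) c0L0 hre (by push_cast; linarith) (by simp only [lastN]; push_cast; linarith)
  push Not at h0
  by_cases h1 : lam.im ≤ (2481 : ℝ) / 4096
  · exact sound_L kap0 hB (by simp) c0L1 hre (by push_cast; linarith) (by simp only [lastN]; push_cast; linarith)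
  push Not at h1
  by_cases h2 : lam.im ≤ (4035 : ℝ) / 4096
  · exact sound_L kap0 hB (by simp) c0L2 hre (by push_cast; linarith) (by simp only [lastN]; push_cast; linarith)
  push Not at h2
  by_cases h3 : lam.im ≤ (9313 : ℝ) / 4096
  · exact sound_L kap0 hB (by simp) c0L3 hre (by push_cast; linarith) (by simp only [lastN]; push_cast; linarith)
  push Not at h3
  exact sound_L kap0 hB (by simp) c0L4 hre (by push_cast; linarith) (by simp only [lastN]; push_cast; linarith)

lemma side0R {w ρ : ℝ} (hB : BoxW w ρ) {lam : ℂ} (hre : lam.re = 11 / 4) (h1 : 0 ≤ lam.im) (h2 : lam.im ≤ 5) :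
    Good 0 (33 / 20) w ρ lam := by
  exact sound_R kap0 hB (by simp) c0R0 hre (by push_cast; linarith) (by simp only [lastN]; push_cast; linarith)

lemma side0T {w ρ : ℝ} (hB : BoxW w ρ) {lam : ℂ} (him : lam.im = 5) (h1 : -1 / 20 ≤ lam.re) (h2 : lam.re ≤ 11 / 4) :
    Good 0 (33 / 20) w ρ lam := by
  exact sound_T kap0 hB (by simp) c0T0 him (by push_cast; linarith) (by simp only [lastN]; push_cast; linarith)

/-- `l = 0` -/
theorem cert0 {w ρ : ℝ} (hB : BoxW w ρ) {lam : ℂ}
    (h : ((lam.re = -1 / 20 ∨ lam.re = 11 / 4) ∧ 0 ≤ lam.im ∧ lam.im ≤ 5) ∨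
      (-1 / 20 ≤ lam.re ∧ lam.re ≤ 11 / 4 ∧ lam.im = 5)) : Good 0 (33 / 20) w ρ lam := by
  rcases h with ⟨h1 | h1, h2, h3⟩ | ⟨h1, h2, h3⟩
  · exact side0L hB h1 h2 h3
  · exact side0R hB h1 h2 h3
  · exact side0T hB h3 h1 h2

end Vale.Agent.P139.H472
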