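import Vale.Agent.P139.H472.Cover

/-!
Kernel certificate on the upper half of the boundary of `[-1/20, 11/4] × [-5, 5]`, `l = 1`.
-/

namespace Vale.Agent.P139.H472

set_option maxRecDepth 100000 in
lemma c1L0 : run (cL 1 323696223217254 8) 0 [
    58, 116, 174, 232, 290, 348, 408, 468, 528, 588, 651, 713, 778, 843, 911, 982, 1053, 1127,
    1202, 1280, 1361, 1445, 1533, 1621, 1716, 1815] = true := by
  decide +kernel

set_option maxRecDepth 100000 in
lemma c1L1 : run (cL 1 323696223217254 8) 1815 [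
    1915, 2020, 2130, 2246, 2367, 2494, 2627, 2771, 2922, 3081, 3248, 3423, 3607, 3808, 4019,
    4241, 4475, 4722, 4982, 5256, 5545, 5849, 6169, 6494, 6836, 7196] = true := by
  decide +kernel

set_option maxRecDepth 100000 in
lemma c1L2 : run (cL 1 323696223217254 8) 7196 [
    7576, 7977, 8399, 8844, 9313, 9807, 10328, 10877, 11477, 12110, 12777, 13481, 14195, 14949,
    15745, 16552, 17370, 18200, 19009, 19764, 20480] = true := by
  decide +kernel

set_option maxRecDepth 100000 in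
lemma c1T0 : run (cT 1 323696223217254 8) 0 [
    260, 598, 1037, 1607, 2348, 3311, 4483, 5815, 7275, 8935, 10755, 11469] = true := by
  decide +kernel

set_option maxRecDepth 100000 in
lemma c1R0 : run (cR 1 323696223217254 8) 0 [
    260, 598, 1037, 1607, 2348, 3311, 4562, 6086, 7633, 9266, 10989, 12808, 14654, 16603,
    18581, 20480] = true := by
  decide +kernel

lemma kap1 : |(23 / 20 : ℝ) * SR - (323696223217254 : Int)| ≤ 1 := by
  unfold SR
  rw [abs_le]
  constructor <;> norm_num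

lemma side1L {w ρ : ℝ} (hB : BoxW w ρ) {lam : ℂ} (hre : lam.re = -1 / 20) (h1 : 0 ≤ lam.im) (h2 : lam.im ≤ 5) :
    Good 1 (23 / 20) w ρ lam := by
  by_cases h0 : lam.im ≤ (1815 : ℝ) / 4096
  · exact sound_L kap1 hB (by simp) c1L0 hre (by push_cast; linarith) (by simp only [lastN]; push_cast; linarith)
  push Not at h0
  by_cases h1 : lam.im ≤ (7196 : ℝ) / 4096
  · exact sound_L kap1 hB (by simp) c1L1 hre (by push_cast; linarith) (by simp only [lastN]; push_cast; linarith)
  push Not at h1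
  exact sound_L kap1 hB (by simp) c1L2 hre (by push_cast; linarith) (by simp only [lastN]; push_cast; linarith)

lemma side1R {w ρ : ℝ} (hB : BoxW w ρ) {lam : ℂ} (hre : lam.re = 11 / 4) (h1 : 0 ≤ lam.im) (h2 : lam.im ≤ 5) :
    Good 1 (23 / 20) w ρ lam := by
  exact sound_R kap1 hB (by simp) c1R0 hre (by push_cast; linarith) (by simp only [lastN]; push_cast; linarith)

lemma side1T {w ρ : ℝ} (hB : BoxW w ρ) {lam : ℂ} (him : lam.im = 5) (h1 : -1 / 20 ≤ lam.re) (h2 : lam.re ≤ 11 / 4) :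
    Good 1 (23 / 20) w ρ lam := by
  exact sound_T kap1 hB (by simp) c1T0 him (by push_cast; linarith) (by simp only [lastN]; push_cast; linarith)

/-- `l = 1` -/
theorem cert1 {w ρ : ℝ} (hB : BoxW w ρ) {lam : ℂ}
    (h : ((lam.re = -1 / 20 ∨ lam.re = 11 / 4) ∧ 0 ≤ lam.im ∧ lam.im ≤ 5) ∨
      (-1 / 20 ≤ lam.re ∧ lam.re ≤ 11 / 4 ∧ lam.im = 5)) : Good 1 (23 / 20) w ρ lam := by
  rcases h with ⟨h1 | h1, h2, h3⟩ | ⟨h1, h2, h3⟩
  · exact side1L hB h1 h2 h3
  · exact side1R hB h1 h2 h3
  · exact side1T hB h3 h1 h2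

end Vale.Agent.P139.H472
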