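import Vale.Agent.P139.H472.Cover

/-!
Kernel certificate on the upper half of the boundary of `[-1/20, 11/4] × [-5, 5]`, `l = 2`.
-/

namespace Vale.Agent.P139.H472

set_option maxRecDepth 100000 in
lemma c2L0 : run (cL 2 436286213901516 8) 0 [
    203, 400, 592, 785, 972, 1154, 1331, 1495, 1654, 1808, 1958, 2097, 2232, 2363, 2490, 2613,
    2727, 2842, 2953, 3061, 3166, 3268, 3367, 3463, 3559, 3655] = true := by
  decide +kernel

set_option maxRecDepth 100000 in
lemma c2L1 : run (cL 2 436286213901516 8) 3655 [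
    3751, 3844, 3937, 4030, 4127, 4225, 4324, 4424, 4525, 4631, 4741, 4852, 4969, 5087, 5210,
    5339, 5474, 5616, 5765, 5927, 6097, 6276, 6471, 6676, 6899, 7142] = true := by
  decide +kernel

set_option maxRecDepth 100000 in
lemma c2L2 : run (cL 2 436286213901516 8) 7142 [
    7397, 7675, 7978, 8296, 8644, 9025, 9427, 9866, 10346, 10853, 11408, 11993, 12634, 13310,
    14023, 14775, 15598, 16432, 17312, 18205, 19111, 20029, 20480] = true := by
  decide +kernel

set_option maxRecDepth 100000 in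
lemma c2T0 : run (cT 2 436286213901516 8) 0 [
    260, 598, 1037, 1607, 2348, 3311, 4562, 6086, 7819, 9718, 11469] = true := by
  decide +kernel

set_option maxRecDepth 100000 in
lemma c2R0 : run (cR 2 436286213901516 8) 0 [
    260, 598, 1037, 1607, 2348, 3311, 4562, 6188, 7904, 9645, 11483, 13423, 15471, 17550,
    19745, 20480] = true := by
  decide +kernel

lemma kap2 : |(31 / 20 : ℝ) * SR - (436286213901516 : Int)| ≤ 1 := by
  unfold SR
  rw [abs_le]
  constructor <;> norm_num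

lemma side2L {w ρ : ℝ} (hB : BoxW w ρ) {lam : ℂ} (hre : lam.re = -1 / 20) (h1 : 0 ≤ lam.im) (h2 : lam.im ≤ 5) :
    Good 2 (31 / 20) w ρ lam := by
  by_cases h0 : lam.im ≤ (3655 : ℝ) / 4096
  · exact sound_L kap2 hB (by simp) c2L0 hre (by push_cast; linarith) (by simp only [lastN]; push_cast; linarith)
  push Not at h0
  by_cases h1 : lam.im ≤ (7142 : ℝ) / 4096
  · exact sound_L kap2 hB (by simp) c2L1 hre (by push_cast; linarith) (by simp only [lastN]; push_cast; linarith)
  push Not at h1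
  exact sound_L kap2 hB (by simp) c2L2 hre (by push_cast; linarith) (by simp only [lastN]; push_cast; linarith)

lemma side2R {w ρ : ℝ} (hB : BoxW w ρ) {lam : ℂ} (hre : lam.re = 11 / 4) (h1 : 0 ≤ lam.im) (h2 : lam.im ≤ 5) :
    Good 2 (31 / 20) w ρ lam := by
  exact sound_R kap2 hB (by simp) c2R0 hre (by push_cast; linarith) (by simp only [lastN]; push_cast; linarith)

lemma side2T {w ρ : ℝ} (hB : BoxW w ρ) {lam : ℂ} (him : lam.im = 5) (h1 : -1 / 20 ≤ lam.re) (h2 : lam.re ≤ 11 / 4) :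
    Good 2 (31 / 20) w ρ lam := by
  exact sound_T kap2 hB (by simp) c2T0 him (by push_cast; linarith) (by simp only [lastN]; push_cast; linarith)

/-- `l = 2` -/
theorem cert2 {w ρ : ℝ} (hB : BoxW w ρ) {lam : ℂ}
    (h : ((lam.re = -1 / 20 ∨ lam.re = 11 / 4) ∧ 0 ≤ lam.im ∧ lam.im ≤ 5) ∨
      (-1 / 20 ≤ lam.re ∧ lam.re ≤ 11 / 4 ∧ lam.im = 5)) : Good 2 (31 / 20) w ρ lam := by
  rcases h with ⟨h1 | h1, h2, h3⟩ | ⟨h1, h2, h3⟩
  · exact side2L hB h1 h2 h3
  · exact side2R hB h1 h2 h3
  · exact side2T hB h3 h1 h2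

end Vale.Agent.P139.H472
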