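import Vale.Agent.P139.H472.Cover

/-!
Kernel certificate on the upper half of the boundary of `[-1/20, 11/4] × [-5, 5]`, `l = 3`.
-/

namespace Vale.Agent.P139.H472

set_option maxRecDepth 100000 in
lemma c3L0 : run (cL 3 562949953421312 8) 0 [
    260, 576, 895, 1205, 1519, 1825, 2134, 2446, 2749, 3055, 3364, 3664, 3968, 4276, 4588,
    4903, 5221, 5543, 5869, 6199, 6547, 6900, 7271, 7647, 8043, 8460] = true := by
  decide +kernel

set_option maxRecDepth 100000 in
lemma c3L1 : run (cL 3 562949953421312 8) 8460 [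
    8883, 9328, 9797, 10291, 10812, 11361, 11961, 12594, 13261, 13965, 14708, 15521, 16379,
    17284, 18202, 19170, 20152, 20480] = true := by
  decide +kernel

set_option maxRecDepth 100000 in
lemma c3T0 : run (cT 3 562949953421312 8) 0 [
    260, 598, 1037, 1607, 2348, 3311, 4562, 6188, 8036, 10137, 11469] = true := by
  decide +kernel

set_option maxRecDepth 100000 in
lemma c3R0 : run (cR 3 562949953421312 8) 0 [
    260, 598, 1037, 1607, 2348, 3311, 4562, 6188, 8036, 9912, 11892, 13983, 16106, 18347, 20480] = true := by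
  decide +kernel

lemma kap3 : |(2 : ℝ) * SR - (562949953421312 : Int)| ≤ 1 := by
  unfold SR
  rw [abs_le]
  constructor <;> norm_num

lemma side3L {w ρ : ℝ} (hB : BoxW w ρ) {lam : ℂ} (hre : lam.re = -1 / 20) (h1 : 0 ≤ lam.im) (h2 : lam.im ≤ 5) :
    Good 3 (2) w ρ lam := by
  by_cases h0 : lam.im ≤ (8460 : ℝ) / 4096
  · exact sound_L kap3 hB (by simp) c3L0 hre (by push_cast; linarith) (by simp only [lastN]; push_cast; linarith)
  push Not at h0
  exact sound_L kap3 hB (by simp) c3L1 hre (by push_cast; linarith) (by simp only [lastN]; push_cast; linarith)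

lemma side3R {w ρ : ℝ} (hB : BoxW w ρ) {lam : ℂ} (hre : lam.re = 11 / 4) (h1 : 0 ≤ lam.im) (h2 : lam.im ≤ 5) :
    Good 3 (2) w ρ lam := by
  exact sound_R kap3 hB (by simp) c3R0 hre (by push_cast; linarith) (by simp only [lastN]; push_cast; linarith)

lemma side3T {w ρ : ℝ} (hB : BoxW w ρ) {lam : ℂ} (him : lam.im = 5) (h1 : -1 / 20 ≤ lam.re) (h2 : lam.re ≤ 11 / 4) :
    Good 3 (2) w ρ lam := by
  exact sound_T kap3 hB (by simp) c3T0 him (by push_cast; linarith) (by simp only [lastN]; push_cast; linarith)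

/-- `l = 3` -/
theorem cert3 {w ρ : ℝ} (hB : BoxW w ρ) {lam : ℂ}
    (h : ((lam.re = -1 / 20 ∨ lam.re = 11 / 4) ∧ 0 ≤ lam.im ∧ lam.im ≤ 5) ∨
      (-1 / 20 ≤ lam.re ∧ lam.re ≤ 11 / 4 ∧ lam.im = 5)) : Good 3 (2) w ρ lam := by
  rcases h with ⟨h1 | h1, h2, h3⟩ | ⟨h1, h2, h3⟩
  · exact side3L hB h1 h2 h3
  · exact side3R hB h1 h2 h3
  · exact side3T hB h3 h1 h2

end Vale.Agent.P139.H472
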