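import Vale.Agent.P139.H772.EW5
import Vale.Agent.P139.H472.Cert0
import Vale.Agent.P139.H472.Cert1
import Vale.Agent.P139.H472.Cert2
import Vale.Agent.P139.H472.Cert3

/-!
# `BdIneq` for `l = 0, 1, 2, 3`
-/

namespace Vale.Agent.P139.H472

open Complex ComplexConjugate Vale.Agent.P139.H772 Vale.Agent.P139.KU

lemma low_eq (a : ℂ) (ρ β : ℝ) (q : ℂ) :
    (low a ((β + 1 : ℝ) : ℂ) ρ q).1 = -I * (XY a ρ β q).1 ∧
      (low a ((β + 1 : ℝ) : ℂ) ρ q).2 = -I * (XY a ρ β q).2 := by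
  have hI : I ^ 2 = -1 := Complex.I_sq
  have hI3 : I ^ 3 = -I := by rw [pow_succ, hI]; ring
  have hI4 : I ^ 4 = 1 := by rw [show (4 : ℕ) = 2 * 2 from rfl, pow_mul, hI]; ring
  have hI5 : I ^ 5 = I := by rw [pow_succ, hI4, one_mul]
  have hI6 : I ^ 6 = -1 := by rw [pow_succ, hI5]; rw [← sq, hI]
  constructor
  · simp only [low, stp, XY]
    push_cast
    ring_nf
    simp only [hI, hI3, hI4]
    ring
  · simp only [low, stp, XY]
    push_cast
    ring_nf
    simp only [hI, hI3, hI4]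
    ring

lemma ladder_of_ladSeq {l : ℕ} {w ρ : ℝ} {lam : ℂ} {q : ℕ → ℂ} (h : LadSeq l w ρ lam q) :
    Ladder (lam + l / 2 - I * w) ρ (11 / 2 + l) q := by
  refine ⟨fun n hn => ?_, fun n hn => ?_⟩
  · have := h.half n hn
    simp only [bR] at this
    linarith
  · have := h.step n hn
    simp only [An, Cn, bR, aE] at this
    push_cast at this ⊢
    linear_combination this

lemma Nl_eq (l : ℕ) (w ρ : ℝ) (lam q q' : ℂ) :
    Nl l w ρ lam q q' = NN (lam + l / 2 - I * w) ((starRingEnd ℂ) lam + l / 2 - I * w) ρ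
      (11 / 2 + l) q q' := by
  have hb : ((bR l : ℝ) : ℂ) = (((11 / 2 + l : ℝ) + 1 : ℝ) : ℂ) := by
    simp only [bR]; push_cast; ring
  simp only [Nl, NN]
  rw [hb]
  have h1 := low_eq (aE l w lam) ρ (11 / 2 + l) q
  have h2 := low_eq (aE l w ((starRingEnd ℂ) lam)) ρ (11 / 2 + l) q'
  rw [h1.1, h1.2, h2.1, h2.2]
  simp only [map_mul, map_neg, Complex.conj_I]
  have hI : I ^ 2 = -1 := Complex.I_sq
  have ha : ∀ z : ℂ, aE l w z = z + l / 2 - I * w := fun z => by simp only [aE]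
  rw [ha, ha]
  ring_nf
  rw [hI]
  ring

lemma bd_of_good {l : ℕ} {κ w ρ : ℝ} (hρ : 0 < ρ)
    (hZ : ∀ lam : ℂ, zer l lam * den1 l lam = ZZ l κ lam)
    (h : ∀ lam : ℂ, ((lam.re = -1 / 20 ∨ lam.re = 11 / 4) ∧ 0 ≤ lam.im ∧ lam.im ≤ 5) ∨
      (-1 / 20 ≤ lam.re ∧ lam.re ≤ 11 / 4 ∧ lam.im = 5) → Good l κ w ρ lam) :
    BdIneq l w ρ := by
  refine bdIneq_of_seq hρ fun lam hlam qa qb ha hb => ?_
  have := h lam hlam qa qb (ladder_of_ladSeq ha) (ladder_of_ladSeq hb)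
  rw [Nl_eq, hZ]
  exact this

/-- THE ONE DIMENSIONAL INEQUALITIES on the box. -/
theorem bdIneq_all {w ρ : ℝ} (hB : BoxW w ρ) (l : ℕ) (hl : l < 4) : BdIneq l w ρ := by
  have hρ : 0 < ρ := by
    have := (abs_le.1 hB.ρ).1
    linarith
  interval_cases l
  · refine bd_of_good (κ := 33 / 20) hρ (fun lam => ?_) fun lam h => cert0 hB h
    simp only [zer, den1, ZZ, kap]
  · refine bd_of_good (κ := 23 / 20) hρ (fun lam => ?_) fun lam h => cert1 hB h
    simp only [zer, den1, ZZ, kap]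
  · refine bd_of_good (κ := 31 / 20) hρ (fun lam => ?_) fun lam h => cert2 hB h
    simp only [zer, den1, ZZ, kap, one_mul]
  · refine bd_of_good (κ := 2) hρ (fun lam => ?_) fun lam h => cert3 hB h
    simp only [zer, den1, ZZ, kap, one_mul]

end Vale.Agent.P139.H472
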