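import Vale.Agent.P139.H472.Eval

/-!
Covering the sides of the rectangle `[-1/20, 11/4] × [0, 5]` by discs.
The unit of length in the lists is `2^-12`.
-/

namespace Vale.Agent.P139.H472

open CD Complex

/-- run a check over consecutive intervals -/
def run (chk : Nat → Nat → Bool) : Nat → List Nat → Bool
  | _, [] => true
  | n, m :: ms => chk n m && run chk m ms

def lastN : Nat → List Nat → Nat
  | n, [] => n
  | _, m :: ms => lastN m ms

lemma run_sound {P : ℝ → Prop} {chk : Nat → Nat → Bool}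
    (hc : ∀ n m : Nat, chk n m = true → ∀ t : ℝ, (n : ℝ) / 4096 ≤ t → t ≤ (m : ℝ) / 4096 → P t) :
    ∀ (ms : List Nat) (n : Nat), ms ≠ [] → run chk n ms = true → ∀ t : ℝ, (n : ℝ) / 4096 ≤ t →
      t ≤ (lastN n ms : ℝ) / 4096 → P t
  | [], _, h0, _, _, _, _ => (h0 rfl).elim
  | [m], n, _, h, t, h1, h2 => by
    simp only [run, Bool.and_true] at h
    exact hc n m h t h1 h2
  | m :: m' :: ms, n, _, h, t, h1, h2 => by
    rw [run, Bool.and_eq_true] at h
    by_cases ht : t ≤ (m : ℝ) / 4096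
    · exact hc n m h.1 t h1 ht
    · push Not at ht
      exact run_sound hc (m' :: ms) m (by simp) h.2 t ht.le h2

/-- vertical piece -/
def pv (xc : Int) (n m : Nat) : CD :=
  ⟨xc, (n + m : Nat) * 34359738368, (m - n) * 34359738368 + 2, true⟩

/-- horizontal piece -/
def ph (yc xc : Int) (n m : Nat) : CD :=
  ⟨xc + (n + m : Nat) * 34359738368, yc, (m - n) * 34359738368 + 2, true⟩

lemma abs_mid {t : ℝ} {n m : Nat} (h1 : (n : ℝ) / 4096 ≤ t) (h2 : t ≤ (m : ℝ) / 4096) :
    |t * SR - ((n + m : Nat) : ℝ) * 34359738368| ≤ ((m - n : Nat) : ℝ) * 34359738368 := by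
  have hS : SR = 4096 * 2 * 34359738368 := by unfold SR; norm_num
  have h3 : (n : ℝ) ≤ m := by
    have := h1.trans h2
    linarith
  have h4 : n ≤ m := by exact_mod_cast h3
  rw [hS, Nat.cast_sub h4, abs_le]
  push_cast
  constructor <;> nlinarith

lemma mem_pv {x0 : ℝ} {xc : Int} (hx : |x0 * SR - xc| ≤ 1) {lam : ℂ} (hlam : lam.re = x0)
    {n m : Nat} (h1 : (n : ℝ) / 4096 ≤ lam.im) (h2 : lam.im ≤ (m : ℝ) / 4096) :
    mem lam (pv xc n m) := by
  intro _
  have h3 := abs_mid h1 h2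
  refine (Complex.norm_le_abs_re_add_abs_im _).trans ?_
  simp only [pv, Complex.sub_re, Complex.sub_im, Complex.re_mul_ofReal, Complex.im_mul_ofReal]
  rw [hlam]
  push_cast at h3 ⊢
  linarith

lemma mem_ph {x0 y0 : ℝ} {xc yc : Int} (hx : |x0 * SR - xc| ≤ 1) (hy : y0 * SR = yc) {lam : ℂ}
    (hlam : lam.im = y0) {n m : Nat} (h1 : (n : ℝ) / 4096 ≤ lam.re - x0)
    (h2 : lam.re - x0 ≤ (m : ℝ) / 4096) :
    mem lam (ph yc xc n m) := by
  intro _
  have h3 := abs_mid h1 h2
  refine (Complex.norm_le_abs_re_add_abs_im _).trans ?_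
  simp only [ph, Complex.sub_re, Complex.sub_im, Complex.re_mul_ofReal, Complex.im_mul_ofReal]
  rw [hlam, hy]
  have h4 : lam.re * SR - ((xc + (n + m : Nat) * 34359738368 : Int) : ℝ)
      = ((lam.re - x0) * SR - ((n + m : Nat) : ℝ) * 34359738368) + (x0 * SR - xc) := by
    push_cast; ring
  rw [h4]
  have h5 := abs_add_le ((lam.re - x0) * SR - ((n + m : Nat) : ℝ) * 34359738368) (x0 * SR - xc)
  push_cast at h3 h5 ⊢
  simp only [sub_self, abs_zero]
  linarith

/-- The property to be certified at `lam`. -/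
def Good (l : ℕ) (κ w ρ : ℝ) (lam : ℂ) : Prop :=
  ∀ qa qb : ℕ → ℂ, Ladder (lam + l / 2 - I * w) ρ (11 / 2 + l) qa →
    Ladder ((starRingEnd ℂ) lam + l / 2 - I * w) ρ (11 / 2 + l) qb →
    0 < (NN (lam + l / 2 - I * w) ((starRingEnd ℂ) lam + l / 2 - I * w) ρ (11 / 2 + l)
      (qa 3) (qb 3) * (starRingEnd ℂ) (ZZ l κ lam)).re

/-- the box for `(w, ρ)` -/
structure BoxW (w ρ : ℝ) : Prop where
  w : |w - 0.674128401314| ≤ 0.000001
  ρ : |ρ - 2.663965| ≤ 0.000026

/-- the check with the constants of the box: `w = 0.674128401314 ± 10^-6`,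
`ρ = 2.663965 ± 26*10^-6` -/
def GB (l : Nat) (kap : Int) (k : Nat) (L : CD) : Bool :=
  posRe (GG l kap 189750276059849 281474980 749839486333002 7318349397 k L)

lemma GB_sound {l : ℕ} {κ w ρ : ℝ} {kap : Int} {k : ℕ} (hκ : |κ * SR - kap| ≤ 1)
    (hB : BoxW w ρ) {lam : ℂ} {L : CD} (hL : mem lam L) (hp : GB l kap k L = true) :
    Good l κ w ρ lam := by
  intro qa qb ha hb
  refine GG_sound k hκ ?_ ?_ hL ha hb hp
  · have h := abs_le.1 hB.w
    unfold SR
    rw [abs_le]
    push_cast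
    constructor <;> linarith [h.1, h.2]
  · have h := abs_le.1 hB.ρ
    unfold SR
    rw [abs_le]
    push_cast
    constructor <;> linarith [h.1, h.2]

/-- left side, `Re lam = -1/20` -/
def cL (l : Nat) (kap : Int) (k : Nat) (n m : Nat) : Bool := GB l kap k (pv (-14073748835533) n m)
/-- right side, `Re lam = 11/4` -/
def cR (l : Nat) (kap : Int) (k : Nat) (n m : Nat) : Bool := GB l kap k (pv 774056185954304 n m)
/-- top side, `Im lam = 5` -/
def cT (l : Nat) (kap : Int) (k : Nat) (n m : Nat) : Bool :=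
  GB l kap k (ph 1407374883553280 (-14073748835533) n m)

lemma sound_L {l : ℕ} {κ w ρ : ℝ} {kap : Int} {k : ℕ} (hκ : |κ * SR - kap| ≤ 1)
    (hB : BoxW w ρ) {n : Nat} {ms : List Nat} (h0 : ms ≠ []) (h : run (cL l kap k) n ms = true)
    {lam : ℂ} (hre : lam.re = -1 / 20) (h1 : (n : ℝ) / 4096 ≤ lam.im)
    (h2 : lam.im ≤ (lastN n ms : ℝ) / 4096) : Good l κ w ρ lam := by
  have key := run_sound (P := fun t => ∀ lam : ℂ, lam.re = -1 / 20 → lam.im = t → Good l κ w ρ lam)
    (chk := cL l kap k) (fun n m hc t ht1 ht2 lam hre him => by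
      subst him
      refine GB_sound hκ hB (mem_pv (x0 := -1 / 20) ?_ hre ht1 ht2) hc
      unfold SR
      push_cast
      rw [abs_le]; constructor <;> norm_num) ms n h0 h lam.im h1 h2
  exact key lam hre rfl

lemma sound_R {l : ℕ} {κ w ρ : ℝ} {kap : Int} {k : ℕ} (hκ : |κ * SR - kap| ≤ 1)
    (hB : BoxW w ρ) {n : Nat} {ms : List Nat} (h0 : ms ≠ []) (h : run (cR l kap k) n ms = true)
    {lam : ℂ} (hre : lam.re = 11 / 4) (h1 : (n : ℝ) / 4096 ≤ lam.im)
    (h2 : lam.im ≤ (lastN n ms : ℝ) / 4096) : Good l κ w ρ lam := by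
  have key := run_sound (P := fun t => ∀ lam : ℂ, lam.re = 11 / 4 → lam.im = t → Good l κ w ρ lam)
    (chk := cR l kap k) (fun n m hc t ht1 ht2 lam hre him => by
      subst him
      refine GB_sound hκ hB (mem_pv (x0 := 11 / 4) ?_ hre ht1 ht2) hc
      unfold SR
      push_cast
      rw [abs_le]; constructor <;> norm_num) ms n h0 h lam.im h1 h2
  exact key lam hre rfl

lemma sound_T {l : ℕ} {κ w ρ : ℝ} {kap : Int} {k : ℕ} (hκ : |κ * SR - kap| ≤ 1)
    (hB : BoxW w ρ) {n : Nat} {ms : List Nat} (h0 : ms ≠ []) (h : run (cT l kap k) n ms = true)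
    {lam : ℂ} (him : lam.im = 5) (h1 : (n : ℝ) / 4096 ≤ lam.re - (-1 / 20))
    (h2 : lam.re - (-1 / 20) ≤ (lastN n ms : ℝ) / 4096) : Good l κ w ρ lam := by
  have key := run_sound
    (P := fun t => ∀ lam : ℂ, lam.im = 5 → lam.re - (-1 / 20) = t → Good l κ w ρ lam)
    (chk := cT l kap k) (fun n m hc t ht1 ht2 lam him hre => by
      subst hre
      refine GB_sound hκ hB (mem_ph (x0 := -1 / 20) (y0 := 5) ?_ ?_ him ht1 ht2) hc
      · unfold SR
        push_cast
        rw [abs_le]; constructor <;> norm_num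
      · unfold SR; norm_num) ms n h0 h (lam.re - (-1 / 20)) h1 h2
  exact key lam him rfl

end Vale.Agent.P139.H472
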