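import Mathlib

/-!
Kernel-evaluable complex disc arithmetic.

A disc is `(x, y, r)` with integer centre and natural radius, to be read with the scale `2^48`;
`ok = false` means that the disc carries no information.  All operations are outward rounded.
-/

namespace Vale.Agent.P139.H472

/-- fixed point complex disc, scale `2^48` -/
structure CD where
  x : Int
  y : Int
  r : Nat
  ok : Bool

/-- the scale, as an integer -/
abbrev SZ : Int := 281474976710656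

/-- the scale, as a natural number -/
abbrev SN : Nat := 281474976710656

/-- the scale, as a real number -/
noncomputable def SR : ℝ := 281474976710656

lemma SR_pos : 0 < SR := by unfold SR; norm_num

lemma SZ_cast : ((SZ : Int) : ℝ) = SR := by unfold SR SZ; norm_num

lemma SN_cast : ((SN : Nat) : ℝ) = SR := by unfold SR SN; norm_num

/-- membership -/
def CD.mem (z : ℂ) (D : CD) : Prop :=
  D.ok = true → ‖z * (SR : ℂ) - (⟨(D.x : ℝ), (D.y : ℝ)⟩ : ℂ)‖ ≤ (D.r : ℝ)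

/-- square of the absolute value -/
def nsqN (x y : Int) : Nat := x.natAbs * x.natAbs + y.natAbs * y.natAbs

/-- a rough approximation (from above) of the absolute value, always positive -/
def rough (x y : Int) : Nat :=
  let a := x.natAbs
  let b := y.natAbs
  cond (Nat.ble a b) (b + 27 * a / 64 + 1) (a + 27 * b / 64 + 1)

/-- upper bound for the absolute value (one Newton step) -/
def nbN (x y : Int) : Nat := (rough x y + nsqN x y / rough x y) / 2 + 1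

/-- lower bound for the absolute value -/
def lbN (x y : Int) : Nat := nsqN x y / nbN x y

namespace CD

def add (a b : CD) : CD := ⟨a.x + b.x, a.y + b.y, a.r + b.r, a.ok && b.ok⟩
def neg (a : CD) : CD := ⟨-a.x, -a.y, a.r, a.ok⟩
def sub (a b : CD) : CD := ⟨a.x - b.x, a.y - b.y, a.r + b.r, a.ok && b.ok⟩
def conj (a : CD) : CD := ⟨a.x, -a.y, a.r, a.ok⟩
/-- multiplication by an integer -/
def zsmul (k : Int) (a : CD) : CD := ⟨k * a.x, k * a.y, k.natAbs * a.r, a.ok⟩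
def mul (a b : CD) : CD :=
  ⟨(a.x * b.x - a.y * b.y) / SZ, (a.x * b.y + a.y * b.x) / SZ,
    (nbN a.x a.y * b.r + nbN b.x b.y * a.r + a.r * b.r) / SN + 3, a.ok && b.ok⟩
/-- inverse of a disc not containing `0` -/
def inv (a : CD) : CD :=
  let den : Nat := nsqN a.x a.y - a.r * a.r
  ⟨a.x * (SZ * SZ) / (den : Int), (-a.y) * (SZ * SZ) / (den : Int), a.r * (SN * SN) / den + 3,
    a.ok && Nat.blt (a.r * a.r) (nsqN a.x a.y)⟩

end CD

open CD

lemma rough_pos (x y : Int) : 0 < rough x y := by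
  unfold rough
  simp only
  cases Nat.ble x.natAbs y.natAbs <;> simp

lemma nsqN_cast (x y : Int) :
    ((nsqN x y : Nat) : ℝ) = ‖(⟨(x : ℝ), (y : ℝ)⟩ : ℂ)‖ ^ 2 := by
  rw [← Complex.normSq_eq_norm_sq, Complex.normSq_mk]
  unfold nsqN
  push_cast
  have h : ∀ z : Int, ((z.natAbs : Nat) : ℝ) * ((z.natAbs : Nat) : ℝ) = (z : ℝ) * z := by
    intro z
    have h1 : ((z.natAbs : Nat) : ℝ) = |(z : ℝ)| := by
      rw [Nat.cast_natAbs]; push_cast; rfl
    rw [h1, abs_mul_abs_self]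
  rw [h, h]

/-- rounding lemma: the floor of `p / d` -/
lemma floor_err (p d : Int) (hd : 0 < d) :
    |(p : ℝ) / (d : ℝ) - ((p / d : Int) : ℝ)| ≤ 1 := by
  have hd' : (0 : ℝ) < (d : ℝ) := by exact_mod_cast hd
  have h1 := Int.lt_ediv_add_one_mul_self p hd
  have h2 : p / d * d ≤ p := Int.ediv_mul_le p hd.ne'
  have h1' : (p : ℝ) < (((p / d + 1) * d : Int) : ℝ) := by exact_mod_cast h1
  have h2' : ((p / d * d : Int) : ℝ) ≤ (p : ℝ) := by exact_mod_cast h2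
  push_cast at h1' h2'
  have h3 : (p : ℝ) / d < ((p / d : Int) : ℝ) + 1 := by
    rw [div_lt_iff₀ hd']; linarith
  have h4 : ((p / d : Int) : ℝ) ≤ (p : ℝ) / d := by
    rw [le_div_iff₀ hd']; linarith
  rw [abs_le]
  constructor <;> linarith

lemma le_floor_add_one (p d : Nat) (hd : 0 < d) :
    (p : ℝ) / (d : ℝ) ≤ ((p / d : Nat) : ℝ) + 1 := by
  have h := floor_err (p : Int) (d : Int) (by exact_mod_cast hd)
  have := (abs_le.1 h).2
  have e : (((p : Int) / (d : Int) : Int) : ℝ) = ((p / d : Nat) : ℝ) := by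
    rw [← Int.natCast_div, Int.cast_natCast]
  rw [e] at this
  push_cast at this ⊢
  linarith

lemma norm_le_nb (x y : Int) :
    ‖(⟨(x : ℝ), (y : ℝ)⟩ : ℂ)‖ ≤ ((nbN x y : Nat) : ℝ) := by
  have hm := rough_pos x y
  set m : Nat := rough x y with hmd
  have hmR : (0 : ℝ) < (m : ℝ) := by exact_mod_cast hm
  have hn := nsqN_cast x y
  set v : ℝ := ‖(⟨(x : ℝ), (y : ℝ)⟩ : ℂ)‖ with hv
  have h1 := le_floor_add_one (nsqN x y) m hm
  rw [hn] at h1
  have h3 : (v : ℝ) ≤ ((m : ℝ) + v ^ 2 / m) / 2 := by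
    rw [le_div_iff₀ (by norm_num : (0 : ℝ) < 2)]
    have h4 : 0 ≤ (m - v) ^ 2 / m := by positivity
    have h5 : (m - v) ^ 2 / m = m - 2 * v + v ^ 2 / m := by
      field_simp
      ring
    linarith
  unfold nbN
  rw [← hmd]
  have h8 : ((m : ℝ) + ((nsqN x y / m : Nat) : ℝ)) / 2 ≤ (((m + nsqN x y / m) / 2 : Nat) : ℝ) + 1 / 2 := by
    have h10 : (m + nsqN x y / m) ≤ ((m + nsqN x y / m) / 2) * 2 + 1 := by omega
    have h11 : (((m + nsqN x y / m) : Nat) : ℝ) ≤ ((((m + nsqN x y / m) / 2) * 2 + 1 : Nat) : ℝ) := by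
      exact_mod_cast h10
    rw [div_le_iff₀ (by norm_num : (0 : ℝ) < 2)]
    push_cast at h11 ⊢
    linarith
  have h12 : ((m : ℝ) + v ^ 2 / m) / 2 ≤ ((m : ℝ) + ((nsqN x y / m : Nat) : ℝ)) / 2 + 1 / 2 := by
    linarith
  have h13 : (((m + nsqN x y / m) / 2 + 1 : Nat) : ℝ) = (((m + nsqN x y / m) / 2 : Nat) : ℝ) + 1 := by
    push_cast; rfl
  rw [h13]
  linarith

lemma nb_pos (x y : Int) : 0 < nbN x y := by
  unfold nbN; exact Nat.succ_pos _

lemma lb_le_norm (x y : Int) :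
    ((lbN x y : Nat) : ℝ) ≤ ‖(⟨(x : ℝ), (y : ℝ)⟩ : ℂ)‖ := by
  have h0 := nb_pos x y
  have h0R : (0 : ℝ) < ((nbN x y : Nat) : ℝ) := by exact_mod_cast h0
  have h1 := norm_le_nb x y
  have hn := nsqN_cast x y
  have h2 : ((nsqN x y / nbN x y : Nat) : ℝ) ≤ (nsqN x y : ℝ) / (nbN x y : ℝ) := Nat.cast_div_le
  unfold lbN
  refine h2.trans ?_
  rw [hn, div_le_iff₀ h0R, sq]
  exact mul_le_mul_of_nonneg_left h1 (norm_nonneg _)

lemma mem_add {z w : ℂ} {a b : CD} (ha : mem z a) (hb : mem w b) : mem (z + w) (add a b) := by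
  intro h
  simp only [add, Bool.and_eq_true] at h ⊢
  have h1 := ha h.1
  have h2 := hb h.2
  have e : (z + w) * (SR : ℂ) - (⟨((a.x + b.x : Int) : ℝ), ((a.y + b.y : Int) : ℝ)⟩ : ℂ)
      = (z * (SR : ℂ) - ⟨(a.x : ℝ), (a.y : ℝ)⟩) + (w * (SR : ℂ) - ⟨(b.x : ℝ), (b.y : ℝ)⟩) := by
    apply Complex.ext <;> simp <;> ring
  rw [e]
  push_cast
  exact (norm_add_le _ _).trans (add_le_add h1 h2)

lemma mem_neg {z : ℂ} {a : CD} (ha : mem z a) : mem (-z) (neg a) := by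
  intro h
  have h1 := ha h
  have e : (-z) * (SR : ℂ) - (⟨((-a.x : Int) : ℝ), ((-a.y : Int) : ℝ)⟩ : ℂ)
      = -(z * (SR : ℂ) - ⟨(a.x : ℝ), (a.y : ℝ)⟩) := by
    apply Complex.ext <;> simp <;> ring
  simp only [neg]
  rw [e, norm_neg]
  exact h1

lemma mem_sub {z w : ℂ} {a b : CD} (ha : mem z a) (hb : mem w b) : mem (z - w) (sub a b) := by
  intro h
  simp only [sub, Bool.and_eq_true] at h ⊢
  have h1 := ha h.1
  have h2 := hb h.2
  have e : (z - w) * (SR : ℂ) - (⟨((a.x - b.x : Int) : ℝ), ((a.y - b.y : Int) : ℝ)⟩ : ℂ)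
      = (z * (SR : ℂ) - ⟨(a.x : ℝ), (a.y : ℝ)⟩) - (w * (SR : ℂ) - ⟨(b.x : ℝ), (b.y : ℝ)⟩) := by
    apply Complex.ext <;> simp <;> ring
  rw [e]
  push_cast
  exact (norm_sub_le _ _).trans (add_le_add h1 h2)

lemma mem_conj {z : ℂ} {a : CD} (ha : mem z a) : mem ((starRingEnd ℂ) z) (conj a) := by
  intro h
  have h1 := ha h
  have e : (starRingEnd ℂ) z * (SR : ℂ) - (⟨((a.x : Int) : ℝ), ((-a.y : Int) : ℝ)⟩ : ℂ)
      = (starRingEnd ℂ) (z * (SR : ℂ) - ⟨(a.x : ℝ), (a.y : ℝ)⟩) := by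
    apply Complex.ext
    · simp
    · simp
  simp only [conj]
  rw [e, Complex.norm_conj]
  exact h1

lemma mem_zsmul {z : ℂ} {a : CD} (k : Int) (ha : mem z a) : mem ((k : ℂ) * z) (zsmul k a) := by
  intro h
  have h1 := ha h
  have e : (k : ℂ) * z * (SR : ℂ) - (⟨((k * a.x : Int) : ℝ), ((k * a.y : Int) : ℝ)⟩ : ℂ)
      = (k : ℂ) * (z * (SR : ℂ) - ⟨(a.x : ℝ), (a.y : ℝ)⟩) := by
    apply Complex.ext <;> simp <;> ring
  simp only [zsmul]
  rw [e, norm_mul, Complex.norm_intCast]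
  have : ((k.natAbs * a.r : Nat) : ℝ) = |(k : ℝ)| * (a.r : ℝ) := by
    have h1 : ((k.natAbs : Nat) : ℝ) = |(k : ℝ)| := by
      rw [Nat.cast_natAbs]; push_cast; rfl
    rw [Nat.cast_mul, h1]
  rw [this]
  exact mul_le_mul_of_nonneg_left h1 (abs_nonneg _)

lemma norm_round_le (u : ℂ) (p q : Int) (h1 : |u.re - (p : ℝ)| ≤ 1) (h2 : |u.im - (q : ℝ)| ≤ 1) :
    ‖u - (⟨(p : ℝ), (q : ℝ)⟩ : ℂ)‖ ≤ 2 := by
  have := Complex.norm_le_abs_re_add_abs_im (u - (⟨(p : ℝ), (q : ℝ)⟩ : ℂ))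
  simp only [Complex.sub_re, Complex.sub_im] at this
  linarith

lemma mem_mul {z w : ℂ} {a b : CD} (ha : mem z a) (hb : mem w b) : mem (z * w) (mul a b) := by
  intro h
  simp only [mul, Bool.and_eq_true] at h ⊢
  have h1 := ha h.1
  have h2 := hb h.2
  set ca : ℂ := ⟨(a.x : ℝ), (a.y : ℝ)⟩ with hca
  set cb : ℂ := ⟨(b.x : ℝ), (b.y : ℝ)⟩ with hcb
  have hS := SR_pos
  have hS0 : (SR : ℂ) ≠ 0 := by exact_mod_cast hS.ne'
  have na : ‖ca‖ ≤ (nbN a.x a.y : ℝ) := norm_le_nb a.x a.y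
  have nb' : ‖cb‖ ≤ (nbN b.x b.y : ℝ) := norm_le_nb b.x b.y
  have ra : (0 : ℝ) ≤ a.r := Nat.cast_nonneg _
  have rb : (0 : ℝ) ≤ b.r := Nat.cast_nonneg _
  -- exact product estimate
  have e1 : z * w * (SR : ℂ) - ca * cb / (SR : ℂ)
      = (ca * (w * SR - cb) + cb * (z * SR - ca) + (z * SR - ca) * (w * SR - cb)) / (SR : ℂ) := by
    field_simp
    ring
  have e2 : ‖z * w * (SR : ℂ) - ca * cb / (SR : ℂ)‖
      ≤ ((nbN a.x a.y : ℝ) * b.r + (nbN b.x b.y : ℝ) * a.r + (a.r : ℝ) * b.r) / SR := by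
    rw [e1, norm_div]
    have : ‖(SR : ℂ)‖ = SR := by
      rw [Complex.norm_real, Real.norm_of_nonneg hS.le]
    rw [this]
    apply div_le_div_of_nonneg_right _ hS.le
    refine (norm_add_le _ _).trans (add_le_add ((norm_add_le _ _).trans (add_le_add ?_ ?_)) ?_)
    · rw [norm_mul]
      exact mul_le_mul na h2 (norm_nonneg _) ((norm_nonneg _).trans na)
    · rw [norm_mul]
      exact mul_le_mul nb' h1 (norm_nonneg _) ((norm_nonneg _).trans nb')
    · rw [norm_mul]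
      exact mul_le_mul h1 h2 (norm_nonneg _) ra
  have e3 : ‖ca * cb / (SR : ℂ) - (⟨(((a.x * b.x - a.y * b.y) / SZ : Int) : ℝ),
      (((a.x * b.y + a.y * b.x) / SZ : Int) : ℝ)⟩ : ℂ)‖ ≤ 2 := by
    have hz : (0 : Int) < SZ := by norm_num [SZ]
    have er : (ca * cb / (SR : ℂ)).re = ((a.x * b.x - a.y * b.y : Int) : ℝ) / ((SZ : Int) : ℝ) := by
      rw [SZ_cast, Complex.div_ofReal_re]
      congr 1
      simp [hca, hcb, Complex.mul_re]
    have ei : (ca * cb / (SR : ℂ)).im = ((a.x * b.y + a.y * b.x : Int) : ℝ) / ((SZ : Int) : ℝ) := by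
      rw [SZ_cast, Complex.div_ofReal_im]
      congr 1
      simp [hca, hcb, Complex.mul_im]
    apply norm_round_le
    · rw [er]; exact floor_err _ _ hz
    · rw [ei]; exact floor_err _ _ hz
  have e4 := le_floor_add_one (nbN a.x a.y * b.r + nbN b.x b.y * a.r + a.r * b.r) SN
    (by norm_num [SN])
  rw [SN_cast] at e4
  push_cast at e4
  have e5 : z * w * (SR : ℂ) - (⟨(((a.x * b.x - a.y * b.y) / SZ : Int) : ℝ),
      (((a.x * b.y + a.y * b.x) / SZ : Int) : ℝ)⟩ : ℂ)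
      = (z * w * (SR : ℂ) - ca * cb / (SR : ℂ)) + (ca * cb / (SR : ℂ) -
        (⟨(((a.x * b.x - a.y * b.y) / SZ : Int) : ℝ),
        (((a.x * b.y + a.y * b.x) / SZ : Int) : ℝ)⟩ : ℂ)) := by ring
  rw [e5]
  refine (norm_add_le _ _).trans ?_
  push_cast
  linarith

lemma mem_inv {z : ℂ} {a : CD} (ha : mem z a) : mem z⁻¹ (inv a) := by
  intro h
  simp only [inv, Bool.and_eq_true, Nat.blt_eq] at h ⊢
  obtain ⟨hok, hden⟩ := h
  have h1 := ha hok
  set c : ℂ := ⟨(a.x : ℝ), (a.y : ℝ)⟩ with hc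
  set den : Nat := nsqN a.x a.y - a.r * a.r with hdend
  have hS := SR_pos
  have hS0 : (SR : ℂ) ≠ 0 := by exact_mod_cast hS.ne'
  have ra : (0 : ℝ) ≤ a.r := Nat.cast_nonneg _
  have hdpos : 0 < den := Nat.sub_pos_of_lt hden
  have hdR : (0 : ℝ) < (den : ℝ) := by exact_mod_cast hdpos
  have hdZ : (0 : Int) < (den : Int) := by exact_mod_cast hdpos
  have hd2 : (den : ℝ) = Complex.normSq c - (a.r : ℝ) ^ 2 := by
    rw [hdend, Nat.cast_sub hden.le, nsqN_cast, ← Complex.normSq_eq_norm_sq]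
    push_cast; ring
  set Z : ℂ := z * (SR : ℂ) with hZ
  -- Z ≠ 0
  have hcn : (a.r : ℝ) < ‖c‖ := by
    have : (a.r : ℝ) ^ 2 < ‖c‖ ^ 2 := by
      rw [← Complex.normSq_eq_norm_sq]; linarith
    exact lt_of_pow_lt_pow_left₀ 2 (norm_nonneg _) this
  have hZ0 : Z ≠ 0 := by
    intro h0
    rw [h0, zero_sub, norm_neg] at h1
    linarith
  have hz0 : z ≠ 0 := by
    intro h0; apply hZ0; rw [hZ, h0, zero_mul]
  -- main inequality
  have key : ‖(den : ℂ) - (starRingEnd ℂ) c * Z‖ ≤ (a.r : ℝ) * ‖Z‖ := by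
    set e : ℂ := Z - c with he
    have hZe : Z = c + e := by rw [he]; ring
    have hdc : (den : ℂ) = c * (starRingEnd ℂ) c - ((a.r : ℝ) : ℂ) ^ 2 := by
      rw [Complex.mul_conj]
      have h3 : ((den : ℝ) : ℂ) = ((Complex.normSq c - (a.r : ℝ) ^ 2 : ℝ) : ℂ) := by rw [hd2]
      push_cast at h3 ⊢
      exact h3
    have h4 : (den : ℂ) - (starRingEnd ℂ) c * Z = -((((a.r : ℝ) : ℂ) ^ 2) + (starRingEnd ℂ) c * e) := by
      rw [hdc, hZe]; ring
    rw [h4, norm_neg]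
    apply (sq_le_sq₀ (norm_nonneg _) (by positivity)).1
    rw [mul_pow, ← Complex.normSq_eq_norm_sq, ← Complex.normSq_eq_norm_sq, hZe]
    have he2 : Complex.normSq e ≤ (a.r : ℝ) ^ 2 := by
      rw [Complex.normSq_eq_norm_sq]
      exact pow_le_pow_left₀ (norm_nonneg _) h1 2
    have h5 : Complex.normSq ((((a.r : ℝ) : ℂ) ^ 2) + (starRingEnd ℂ) c * e)
        = (a.r : ℝ) ^ 4 + 2 * (a.r : ℝ) ^ 2 * (c.re * e.re + c.im * e.im)
          + Complex.normSq c * Complex.normSq e := by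
      simp only [Complex.normSq_apply, Complex.add_re, Complex.add_im, Complex.mul_re,
        Complex.mul_im, Complex.conj_re, Complex.conj_im]
      have hr : (((a.r : ℝ) : ℂ) ^ 2).re = (a.r : ℝ) ^ 2 := by
        rw [← Complex.ofReal_pow]; exact Complex.ofReal_re _
      have hi : (((a.r : ℝ) : ℂ) ^ 2).im = 0 := by
        rw [← Complex.ofReal_pow]; exact Complex.ofReal_im _
      rw [hr, hi]; ring
    have h6 : Complex.normSq (c + e) = Complex.normSq c + 2 * (c.re * e.re + c.im * e.im)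
        + Complex.normSq e := by
      simp only [Complex.normSq_apply, Complex.add_re, Complex.add_im]; ring
    rw [h5, h6]
    have h7 : (a.r : ℝ) ^ 2 ≤ Complex.normSq c := by linarith
    nlinarith [mul_nonneg (sub_nonneg.2 he2) (sub_nonneg.2 h7)]
  have hZn : 0 < ‖Z‖ := norm_pos_iff.2 hZ0
  have e1 : ‖z⁻¹ * (SR : ℂ) - (starRingEnd ℂ) c * (SR : ℂ) ^ 2 / (den : ℂ)‖
      ≤ (a.r : ℝ) * SR ^ 2 / den := by
    have hdC : (den : ℂ) ≠ 0 := by exact_mod_cast hdpos.ne'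
    have e2 : z⁻¹ * (SR : ℂ) - (starRingEnd ℂ) c * (SR : ℂ) ^ 2 / (den : ℂ)
        = ((den : ℂ) - (starRingEnd ℂ) c * Z) * (SR : ℂ) ^ 2 / (Z * (den : ℂ)) := by
      rw [hZ]
      field_simp
    rw [e2, norm_div, norm_mul, norm_mul, norm_pow]
    have n1 : ‖(SR : ℂ)‖ = SR := by
      rw [Complex.norm_real, Real.norm_of_nonneg hS.le]
    have n2 : ‖(den : ℂ)‖ = (den : ℝ) := Complex.norm_natCast _
    rw [n1, n2, div_le_div_iff₀ (by positivity) hdR]
    calc ‖(den : ℂ) - (starRingEnd ℂ) c * Z‖ * SR ^ 2 * (den : ℝ)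
        ≤ ((a.r : ℝ) * ‖Z‖) * SR ^ 2 * (den : ℝ) := by gcongr
      _ = (a.r : ℝ) * SR ^ 2 * (‖Z‖ * (den : ℝ)) := by ring
  have e3 : ‖(starRingEnd ℂ) c * (SR : ℂ) ^ 2 / (den : ℂ) -
      (⟨((a.x * (SZ * SZ) / (den : Int) : Int) : ℝ),
        (((-a.y) * (SZ * SZ) / (den : Int) : Int) : ℝ)⟩ : ℂ)‖ ≤ 2 := by
    have h0 : (starRingEnd ℂ) c * (SR : ℂ) ^ 2 / (den : ℂ)
          = ((starRingEnd ℂ) c * (((SR ^ 2 : ℝ)) : ℂ)) / ((den : ℝ) : ℂ) := by push_cast; rfl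
    have hdd : ((den : Int) : ℝ) = (den : ℝ) := by push_cast; rfl
    have er : ((starRingEnd ℂ) c * (SR : ℂ) ^ 2 / (den : ℂ)).re
        = ((a.x * (SZ * SZ) : Int) : ℝ) / ((den : Int) : ℝ) := by
      rw [h0, Complex.div_ofReal_re, Complex.re_mul_ofReal, hdd]
      push_cast
      rw [← SZ_cast]
      simp [hc]; ring
    have ei : ((starRingEnd ℂ) c * (SR : ℂ) ^ 2 / (den : ℂ)).im
        = (((-a.y) * (SZ * SZ) : Int) : ℝ) / ((den : Int) : ℝ) := by
      rw [h0, Complex.div_ofReal_im, Complex.im_mul_ofReal, hdd]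
      push_cast
      rw [← SZ_cast]
      simp [hc]; ring
    apply norm_round_le
    · rw [er]; exact floor_err _ _ hdZ
    · rw [ei]; exact floor_err _ _ hdZ
  have e4 := le_floor_add_one (a.r * (SN * SN)) den hdpos
  have e4' : (a.r : ℝ) * SR ^ 2 / den ≤ ((a.r * (SN * SN) / den : Nat) : ℝ) + 1 := by
    refine le_trans (le_of_eq ?_) e4
    rw [← SN_cast]; push_cast; ring
  have e5 : z⁻¹ * (SR : ℂ) - (⟨((a.x * (SZ * SZ) / (den : Int) : Int) : ℝ),
      (((-a.y) * (SZ * SZ) / (den : Int) : Int) : ℝ)⟩ : ℂ)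
      = (z⁻¹ * (SR : ℂ) - (starRingEnd ℂ) c * (SR : ℂ) ^ 2 / (den : ℂ))
        + ((starRingEnd ℂ) c * (SR : ℂ) ^ 2 / (den : ℂ) -
          (⟨((a.x * (SZ * SZ) / (den : Int) : Int) : ℝ),
            (((-a.y) * (SZ * SZ) / (den : Int) : Int) : ℝ)⟩ : ℂ)) := by
    ring
  rw [e5]
  refine (norm_add_le _ _).trans ?_
  rw [Nat.cast_add]
  have : ((3 : Nat) : ℝ) = 3 := by norm_num
  rw [this]
  linarith

end Vale.Agent.P139.H472
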