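import Vale.Agent.P139.H472.Lad

/-!
Disc evaluation of the normalised Evans function
`N * conj (Z)`, `N = Y0 X0'^* + X0 Y0'^*`, in factored form.
-/

namespace Vale.Agent.P139.H472

open CD Complex

namespace CD

def a0of (l : Nat) (wc : Int) (wr : Nat) (lam : CD) : CD :=
  ⟨lam.x + l * 140737488355328, lam.y - wc, lam.r + wr, lam.ok⟩

def b2of (l : Nat) : Int := (11 + 2 * l) * 140737488355328

structure T3 where
  Y : CD
  den0 : CD
  M : CD

def tri (b2 : Int) (irho a0 q3 : CD) : T3 :=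
  let D2 := sub q3 irho
  let A2 := addN a0 2
  let den2 := subR (add A2 D2) b2
  let q2 := stepD b2 A2 D2
  let D1 := sub q2 irho
  let A1 := addN a0 1
  let den1 := subR (add A1 D1) b2
  let q1 := stepD b2 A1 D1
  let D0 := sub q1 irho
  ⟨mul a0 D0, subR (add a0 D0) b2, mul den1 den2⟩

def qq3 (b2 : Int) (irho a0 : CD) (k : Nat) : CD := lad b2 irho a0 3 k (startQ b2 (addN a0 (3 + k)))

def pw (a : CD) : Nat → CD
  | 0 => ⟨SZ, 0, 0, true⟩
  | n + 1 => mul (pw a n) a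

/-- add a real constant, rounded -/
def addR (A : CD) (kap : Int) : CD := ⟨A.x + kap, A.y, A.r + 1, A.ok⟩

def zp (l : Nat) (kap : Int) (lam : CD) : CD :=
  match l with
  | 0 => mul (mul lam (subR lam SZ)) (pw (addR lam kap) 4)
  | 1 => mul (subR lam 140737488355328) (pw (addR lam kap) 5)
  | _ => pw (addR lam kap) 6

def FF (t s : T3) : CD :=
  mul (add (mul t.Y (conj s.den0)) (mul (conj s.Y) t.den0)) (mul t.M (conj s.M))

/-- the disc for `N * conj Z` -/
def GG (l : Nat) (kap wc : Int) (wr : Nat) (rc : Int) (rr : Nat) (k : Nat) (lam : CD) : CD :=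
  let b2 := b2of l
  let irho : CD := ⟨0, rc, rr, true⟩
  let a := a0of l wc wr lam
  let b := a0of l wc wr (conj lam)
  let t := tri b2 irho a (qq3 b2 irho a k)
  let s := tri b2 irho b (qq3 b2 irho b k)
  mul (FF t s) (conj (zp l kap lam))

def posRe (G : CD) : Bool := G.ok && decide ((G.r : Int) < G.x)

end CD

/-! ### soundness -/

lemma pos_of_posRe {z : ℂ} {G : CD} (h : mem z G) (hp : posRe G = true) : 0 < z.re := by
  simp only [posRe, Bool.and_eq_true, decide_eq_true_eq] at hp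
  have h1 := (Complex.abs_re_le_norm _).trans (h hp.1)
  rw [Complex.sub_re, Complex.re_mul_ofReal] at h1
  have h2 := (abs_le.1 h1).1
  simp only at h2
  have h3 : ((G.r : Int) : ℝ) < ((G.x : Int) : ℝ) := by exact_mod_cast hp.2
  push_cast at h3
  have h4 : 0 < z.re * SR := by linarith
  exact (pos_iff_pos_of_mul_pos h4).2 SR_pos

/-- the polynomial pair at level `0` -/
noncomputable def XY (a : ℂ) (ρ β : ℝ) (q : ℂ) : ℂ × ℂ :=
  let X2 := q - I * ρ - (β - (a + 2))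
  let Y2 := (a + 2) * (q - I * ρ)
  let X1 := Y2 - (I * ρ + (β - (a + 1))) * X2
  let Y1 := (a + 1) * (Y2 - I * ρ * X2)
  (Y1 - (I * ρ + (β - a)) * X1, a * (Y1 - I * ρ * X1))

/-- factored form data -/
structure Fac (a : ℂ) (ρ β : ℝ) (q : ℂ) (Y den0 M : ℂ) : Prop where
  x : (XY a ρ β q).1 = den0 * M
  y : (XY a ρ β q).2 = Y * M

lemma fac_alg {a q D1 E0 n1 n2 : ℂ} {ρ β : ℝ} (hn2 : n2 = a + 2 + (q - I * ρ) - β)
    (hn1 : n1 = a + 1 + D1 - β) (e2 : n2 * D1 = (a + 2) * (q - I * ρ) - I * ρ * n2)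
    (e1 : n1 * E0 = (a + 1) * D1 - I * ρ * n1) :
    Fac a ρ β q (a * E0) (a + E0 - β) (n1 * n2) := by
  have X2 : q - I * ρ - (β - (a + 2)) = n2 := by rw [hn2]; ring
  have Y2 : (a + 2) * (q - I * ρ) = n2 * D1 + I * ρ * n2 := by linear_combination -e2
  have X1 : n2 * D1 + I * ρ * n2 - (I * ρ + (β - (a + 1))) * n2 = n1 * n2 := by rw [hn1]; ring
  have Y1 : (a + 1) * (n2 * D1 + I * ρ * n2 - I * ρ * n2) = n1 * n2 * (E0 + I * ρ) := by
    linear_combination -n2 * e1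
  constructor
  · simp only [XY]
    rw [X2, Y2, X1, Y1]; ring
  · simp only [XY]
    rw [X2, Y2, X1, Y1]; ring

lemma tri_sound {b2 : Int} {β ρ : ℝ} {a q : ℂ} (hβ : β * SR = (b2 : ℝ)) {irho a0 Q : CD}
    (hρ : mem (I * ρ) irho) (ha : mem a a0) (hq : mem q Q)
    (hok : (tri b2 irho a0 Q).den0.ok = true) :
    ∃ Y den0 M : ℂ, Fac a ρ β q Y den0 M ∧ mem Y (tri b2 irho a0 Q).Y ∧
      mem den0 (tri b2 irho a0 Q).den0 ∧ mem M (tri b2 irho a0 Q).M := by
  have hA2 : mem (a + 2) (addN a0 2) := by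
    have := mem_addN 2 ha; simpa using this
  have hA1 : mem (a + 1) (addN a0 1) := by
    have := mem_addN 1 ha; simpa using this
  have hD2 : mem (q - I * ρ) (sub Q irho) := mem_sub hq hρ
  have hden2 := mem_subR hβ (mem_add hA2 hD2)
  have hq2 := mem_stepD hβ hA2 hD2
  set D2 : ℂ := q - I * ρ with hD2d
  obtain ⟨q2, hq2d⟩ : ∃ z : ℂ, z = (a + 2) * D2 / (a + 2 + D2 - β) := ⟨_, rfl⟩
  rw [← hq2d] at hq2
  have hD1 : mem (q2 - I * ρ) (sub (stepD b2 (addN a0 2) (sub Q irho)) irho) := mem_sub hq2 hρ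
  obtain ⟨D1, hD1d⟩ : ∃ z : ℂ, z = q2 - I * ρ := ⟨_, rfl⟩
  rw [← hD1d] at hD1
  have hden1 := mem_subR hβ (mem_add hA1 hD1)
  have hq1 := mem_stepD hβ hA1 hD1
  obtain ⟨q1, hq1d⟩ : ∃ z : ℂ, z = (a + 1) * D1 / (a + 1 + D1 - β) := ⟨_, rfl⟩
  rw [← hq1d] at hq1
  have hD0 := mem_sub hq1 hρ
  have hden0 := mem_subR hβ (mem_add ha hD0)
  -- ok flags
  have ho1 : (stepD b2 (addN a0 1)
      (sub (stepD b2 (addN a0 2) (sub Q irho)) irho)).ok = true := by
    have h := hok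
    simp only [tri, subR, add] at h
    have h1 := ((Bool.and_eq_true _ _).mp h).2
    exact ((Bool.and_eq_true _ _).mp h1).1
  have ho2 : (stepD b2 (addN a0 2) (sub Q irho)).ok = true := by
    have h1 := ((Bool.and_eq_true _ _).mp ho1).2
    have h2 := ((Bool.and_eq_true _ _).mp h1).1
    exact ((Bool.and_eq_true _ _).mp h2).1
  have hn2 : a + 2 + D2 - β ≠ 0 := stepD_den hβ hA2 hD2 ho2
  have hn1 : a + 1 + D1 - β ≠ 0 := stepD_den hβ hA1 hD1 ho1
  refine ⟨a * (q1 - I * ρ), a + (q1 - I * ρ) - β, (a + 1 + D1 - β) * (a + 2 + D2 - β),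
    fac_alg rfl rfl ?_ ?_, mem_mul ha hD0, hden0, mem_mul hden1 hden2⟩
  · rw [hD1d, mul_sub, hq2d, mul_div_cancel₀ _ hn2]; ring
  · rw [mul_sub, hq1d, mul_div_cancel₀ _ hn1]; ring

lemma mem_pw {z : ℂ} {A : CD} (h : mem z A) : ∀ n : ℕ, mem (z ^ n) (pw A n)
  | 0 => by simpa [pw] using mem_one
  | n + 1 => by
    rw [pow_succ]
    exact mem_mul (mem_pw h n) h

/-- symmetry zeros times normalising factor -/
noncomputable def ZZ (l : ℕ) (κ : ℝ) (lam : ℂ) : ℂ :=
  match l with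
  | 0 => lam * (lam - 1) * (lam + κ) ^ 4
  | 1 => (lam - 1 / 2) * (lam + κ) ^ 5
  | _ => (lam + κ) ^ 6

lemma mem_addR {κ : ℝ} {kap : Int} (hκ : |κ * SR - kap| ≤ 1) {lam : ℂ} {L : CD}
    (h : mem lam L) : mem (lam + κ) (addR L kap) := by
  intro hok
  have h1 := h hok
  have e : (lam + κ) * (SR : ℂ) - (⟨((L.x + kap : Int) : ℝ), ((L.y : Int) : ℝ)⟩ : ℂ)
      = (lam * (SR : ℂ) - ⟨(L.x : ℝ), (L.y : ℝ)⟩) + ((κ * SR - kap : ℝ) : ℂ) := by
    apply Complex.ext
    · simp only [Complex.sub_re, Complex.mul_re, Complex.add_re, Complex.ofReal_re,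
        Complex.ofReal_im, Complex.add_im]
      push_cast; ring
    · simp only [Complex.sub_im, Complex.mul_im, Complex.add_re, Complex.ofReal_re,
        Complex.ofReal_im, Complex.add_im]
      ring
  simp only [addR]
  rw [e]
  refine (norm_add_le _ _).trans ?_
  rw [Complex.norm_real, Real.norm_eq_abs]
  push_cast
  exact add_le_add h1 hκ

lemma mem_zp {κ : ℝ} {kap : Int} (hκ : |κ * SR - kap| ≤ 1) {lam : ℂ} {L : CD} (h : mem lam L)
    (l : ℕ) : mem (ZZ l κ lam) (zp l kap L) := by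
  have hk : mem (lam + κ) (addR L kap) := mem_addR hκ h
  have h1 : mem (lam - 1) (subR L SZ) := by
    have h1 : (1 : ℝ) * SR = ((SZ : Int) : ℝ) := by rw [one_mul, SZ_cast]
    simpa using mem_subR h1 h
  have h2 : mem (lam - 1 / 2) (subR L 140737488355328) := by
    have h1 : (1 / 2 : ℝ) * SR = ((140737488355328 : Int) : ℝ) := by unfold SR; norm_num
    have := mem_subR h1 h
    push_cast at this
    exact this
  match l with
  | 0 => exact mem_mul (mem_mul h h1) (mem_pw hk 4)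
  | 1 => exact mem_mul h2 (mem_pw hk 5)
  | n + 2 => exact mem_pw hk 6

/-- the polynomial form of the Evans function -/
noncomputable def NN (a a' : ℂ) (ρ β : ℝ) (q q' : ℂ) : ℂ :=
  (XY a ρ β q).2 * (starRingEnd ℂ) (XY a' ρ β q').1 +
    (XY a ρ β q).1 * (starRingEnd ℂ) (XY a' ρ β q').2

lemma mem_a0of {w : ℝ} {wc : Int} {wr : Nat} (hw : |w * SR - wc| ≤ wr) {lam : ℂ} {L : CD}
    (h : mem lam L) (l : ℕ) : mem (lam + l / 2 - I * w) (a0of l wc wr L) := by
  intro hok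
  have h1 := h hok
  simp only [a0of]
  have e : (lam + l / 2 - I * w) * (SR : ℂ) -
      (⟨((L.x + l * 140737488355328 : Int) : ℝ), ((L.y - wc : Int) : ℝ)⟩ : ℂ)
      = (lam * (SR : ℂ) - ⟨(L.x : ℝ), (L.y : ℝ)⟩) - I * ((w * SR - wc : ℝ) : ℂ) := by
    apply Complex.ext
    · simp only [Complex.sub_re, Complex.mul_re, Complex.add_re, Complex.ofReal_re,
        Complex.ofReal_im, Complex.add_im, Complex.I_re, Complex.I_im, Complex.sub_im,
        Complex.mul_im]
      have h2 : ((l : ℂ) / 2).re = (l : ℝ) / 2 := by simp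
      have h3 : ((l : ℂ) / 2).im = 0 := by simp
      rw [h2, h3]
      push_cast
      unfold SR
      ring
    · simp only [Complex.sub_re, Complex.mul_re, Complex.add_re, Complex.ofReal_re,
        Complex.ofReal_im, Complex.add_im, Complex.I_re, Complex.I_im, Complex.sub_im,
        Complex.mul_im]
      have h2 : ((l : ℂ) / 2).re = (l : ℝ) / 2 := by simp
      have h3 : ((l : ℂ) / 2).im = 0 := by simp
      rw [h2, h3]
      push_cast
      ring
  rw [e]
  refine (norm_sub_le _ _).trans ?_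
  rw [norm_mul, Complex.norm_I, one_mul, Complex.norm_real, Real.norm_eq_abs]
  push_cast
  exact add_le_add h1 hw

lemma b2of_eq (l : ℕ) : ((11 / 2 + l : ℝ)) * SR = ((b2of l : Int) : ℝ) := by
  unfold b2of SR
  push_cast
  ring

theorem GG_sound {l : ℕ} {κ w ρ : ℝ} {kap wc rc : Int} {wr rr : Nat} (k : ℕ)
    (hκ : |κ * SR - kap| ≤ 1) (hw : |w * SR - wc| ≤ wr) (hr : |ρ * SR - rc| ≤ rr)
    {lam : ℂ} {L : CD} (hL : mem lam L) {qa qb : ℕ → ℂ}
    (ha : Ladder (lam + l / 2 - I * w) ρ (11 / 2 + l) qa)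
    (hb : Ladder ((starRingEnd ℂ) lam + l / 2 - I * w) ρ (11 / 2 + l) qb)
    (hp : posRe (GG l kap wc wr rc rr k L) = true) :
    0 < (NN (lam + l / 2 - I * w) ((starRingEnd ℂ) lam + l / 2 - I * w) ρ (11 / 2 + l)
      (qa 3) (qb 3) * (starRingEnd ℂ) (ZZ l κ lam)).re := by
  have hβ := b2of_eq l
  have hρ : mem (I * ρ) ⟨0, rc, rr, true⟩ := by
    intro _
    have e : I * ρ * (SR : ℂ) - (⟨((0 : Int) : ℝ), ((rc : Int) : ℝ)⟩ : ℂ)
        = I * ((ρ * SR - rc : ℝ) : ℂ) := by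
      apply Complex.ext <;> simp
    simp only
    rw [e, norm_mul, Complex.norm_I, one_mul, Complex.norm_real, Real.norm_eq_abs]
    exact hr
  have hA := mem_a0of hw hL l
  have hB := mem_a0of hw (mem_conj hL) l
  have hqa := mem_ladder hβ ha hρ hA 3 le_rfl k
  have hqb := mem_ladder hβ hb hρ hB 3 le_rfl k
  have hok : (GG l kap wc wr rc rr k L).ok = true := ((Bool.and_eq_true _ _).mp hp).1
  -- ok flags of the two factors
  have hoF := ((Bool.and_eq_true _ _).mp hok).1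
  have hoF1 := ((Bool.and_eq_true _ _).mp hoF).1
  have hoY := ((Bool.and_eq_true _ _).mp hoF1).1
  have hoY' := ((Bool.and_eq_true _ _).mp hoF1).2
  have ho_s := ((Bool.and_eq_true _ _).mp hoY).2
  have ho_t := ((Bool.and_eq_true _ _).mp hoY').2
  obtain ⟨Y, d0, M, hF, hY, hd, hM⟩ := tri_sound hβ hρ hA hqa ho_t
  obtain ⟨Y', d0', M', hF', hY', hd', hM'⟩ := tri_sound hβ hρ hB hqb ho_s
  have hN : NN (lam + l / 2 - I * w) ((starRingEnd ℂ) lam + l / 2 - I * w) ρ (11 / 2 + l)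
      (qa 3) (qb 3) = (Y * (starRingEnd ℂ) d0' + (starRingEnd ℂ) Y' * d0) *
        (M * (starRingEnd ℂ) M') := by
    rw [NN, hF.x, hF.y, hF'.x, hF'.y, map_mul, map_mul]
    ring
  rw [hN]
  have hmem := mem_mul (mem_mul (mem_add (mem_mul hY (mem_conj hd')) (mem_mul (mem_conj hY') hd))
    (mem_mul hM (mem_conj hM'))) (mem_conj (mem_zp hκ hL l))
  exact pos_of_posRe hmem hp

end Vale.Agent.P139.H472
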