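import Vale.Agent.P139.H472.Disc

/-!
The backward ladder `q_n = A_n D / (A_n + D - β2)`, `D = q_{n+1} - iρ`, `A_n = a + n`,
evaluated in disc arithmetic, started from a half plane.
-/

namespace Vale.Agent.P139.H472

open CD Complex

namespace CD

/-- one step of the ladder: `A D / (A + D - β2)` -/
def stepD (b2 : Int) (A D : CD) : CD :=
  let dx : Int := A.x + D.x - b2
  let dy : Int := A.y + D.y
  let l : Nat := lbN dx dy
  let m2 : Nat := l - A.r
  let m1 : Nat := l - (A.r + D.r)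
  let n2 : Nat := nsqN dx dy
  let px : Int := A.x * D.x - A.y * D.y
  let py : Int := A.x * D.y + A.y * D.x
  ⟨(px * dx + py * dy) / (n2 : Int), (py * dx - px * dy) / (n2 : Int),
    ((nbN A.x A.y + A.r) * (nbN (A.x - b2) A.y + A.r) * D.r
      + nbN D.x D.y * nbN (D.x - b2) D.y * A.r) / (m1 * m2) + 3,
    A.ok && (D.ok && Nat.blt (A.r + D.r) l)⟩

/-- add a natural number -/
def addN (A : CD) (n : Nat) : CD := ⟨A.x + n * SZ, A.y, A.r, A.ok⟩

/-- subtract a real constant -/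
def subR (A : CD) (b2 : Int) : CD := ⟨A.x - b2, A.y, A.r, A.ok⟩

/-- first step, from the half plane -/
def startQ (b2 : Int) (A : CD) : CD :=
  let H2 : Nat := (2 * (A.x - A.r) - b2).toNat
  let K : Nat := SN * SN / H2 + 1
  let E : CD := ⟨(K : Int), 0, K, Nat.blt 0 H2⟩
  mul A (add ⟨SZ, 0, 0, true⟩ (mul (sub ⟨b2, 0, 0, true⟩ A) E))

/-- `k` steps of the ladder, from `q_{n0+k}` to `q_{n0}` -/
def lad (b2 : Int) (irho a0 : CD) (n0 : Nat) : Nat → CD → CD
  | 0, q => q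
  | k + 1, q => lad b2 irho a0 n0 k (stepD b2 (addN a0 (n0 + k)) (sub q irho))

end CD

/-- The two point formula for the Moebius step. -/
lemma two_point {A A' D D' : ℂ} {β α δ m1 m2 : ℝ} (hA : ‖A' - A‖ ≤ α) (hD : ‖D' - D‖ ≤ δ)
    (hm1 : 0 < m1) (hm2 : m1 + δ ≤ m2) (hden : m2 + α ≤ ‖A + D - β‖) :
    ‖A' * D' / (A' + D' - β) - A * D / (A + D - β)‖ ≤
      ((‖A‖ + α) * (‖A - β‖ + α) * δ + ‖D‖ * ‖D - β‖ * α) / (m1 * m2) := by
  have hα : 0 ≤ α := (norm_nonneg _).trans hA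
  have hδ : 0 ≤ δ := (norm_nonneg _).trans hD
  have hm2p : 0 < m2 := by linarith
  -- the three denominators
  set d3 : ℂ := A + D - β with hd3
  set d2 : ℂ := A' + D - β with hd2
  set d1 : ℂ := A' + D' - β with hd1
  have n3 : m2 ≤ ‖d3‖ := by linarith
  have n2 : m2 ≤ ‖d2‖ := by
    have h1 : d3 = d2 - (A' - A) := by rw [hd3, hd2]; ring
    have h2 : ‖d3‖ ≤ ‖d2‖ + ‖A' - A‖ := by rw [h1]; exact norm_sub_le _ _
    linarith
  have n1 : m1 ≤ ‖d1‖ := by
    have h1 : d2 = d1 - (D' - D) := by rw [hd1, hd2]; ring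
    have h2 : ‖d2‖ ≤ ‖d1‖ + ‖D' - D‖ := by rw [h1]; exact norm_sub_le _ _
    linarith
  have z3 : d3 ≠ 0 := norm_pos_iff.1 (by linarith)
  have z2 : d2 ≠ 0 := norm_pos_iff.1 (by linarith)
  have z1 : d1 ≠ 0 := norm_pos_iff.1 (by linarith)
  have e1 : A' * D' / d1 - A' * D / d2 = A' * (A' - β) * (D' - D) / (d1 * d2) := by
    rw [div_sub_div _ _ z1 z2, hd1, hd2]
    congr 1
    ring
  have e2 : A' * D / d2 - A * D / d3 = D * (D - β) * (A' - A) / (d2 * d3) := by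
    rw [div_sub_div _ _ z2 z3, hd3, hd2]
    congr 1
    ring
  have e3 : A' * D' / d1 - A * D / d3 = (A' * D' / d1 - A' * D / d2) + (A' * D / d2 - A * D / d3) := by
    ring
  rw [e3, e1, e2, add_div]
  refine (norm_add_le _ _).trans (add_le_add ?_ ?_)
  · rw [norm_div, norm_mul, norm_mul, norm_mul]
    have hA1 : ‖A'‖ ≤ ‖A‖ + α := by
      have : A' = A + (A' - A) := by ring
      calc ‖A'‖ = ‖A + (A' - A)‖ := by rw [← this]
        _ ≤ ‖A‖ + ‖A' - A‖ := norm_add_le _ _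
        _ ≤ _ := by linarith
    have hA2 : ‖A' - β‖ ≤ ‖A - β‖ + α := by
      have : A' - β = (A - β) + (A' - A) := by ring
      calc ‖A' - β‖ = ‖(A - β) + (A' - A)‖ := by rw [← this]
        _ ≤ ‖A - β‖ + ‖A' - A‖ := norm_add_le _ _
        _ ≤ _ := by linarith
    apply div_le_div₀ (by positivity) _ (by positivity) (mul_le_mul n1 n2 hm2p.le (norm_nonneg _))
    apply mul_le_mul _ hD (norm_nonneg _) (by positivity)
    exact mul_le_mul hA1 hA2 (norm_nonneg _) (by positivity)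
  · rw [norm_div, norm_mul, norm_mul, norm_mul]
    apply div_le_div₀ (by positivity) _ (by positivity)
      (mul_le_mul (by linarith : m1 ≤ ‖d2‖) n3 hm2p.le (norm_nonneg _))
    exact mul_le_mul_of_nonneg_left hA (by positivity)

lemma mem_stepD {b2 : Int} {β : ℝ} (hβ : β * SR = (b2 : ℝ)) {A0 D0 : ℂ} {A D : CD}
    (hA : mem A0 A) (hD : mem D0 D) : mem (A0 * D0 / (A0 + D0 - β)) (stepD b2 A D) := by
  intro h
  simp only [stepD, Bool.and_eq_true, Nat.blt_eq] at h ⊢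
  obtain ⟨hAo, hDo, hm1⟩ := h
  have h1 := hA hAo
  have h2 := hD hDo
  have hS := SR_pos
  have hS0 : (SR : ℂ) ≠ 0 := by exact_mod_cast hS.ne'
  set cA : ℂ := ⟨(A.x : ℝ), (A.y : ℝ)⟩ with hcA
  set cD : ℂ := ⟨(D.x : ℝ), (D.y : ℝ)⟩ with hcD
  have rA : (0 : ℝ) ≤ A.r := Nat.cast_nonneg _
  have rD : (0 : ℝ) ≤ D.r := Nat.cast_nonneg _
  set dx : Int := A.x + D.x - b2 with hdx
  set dy : Int := A.y + D.y with hdy
  set l : Nat := lbN dx dy with hl
  set bc : ℂ := ((b2 : ℝ) : ℂ) with hbc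
  have hdc : (⟨(dx : ℝ), (dy : ℝ)⟩ : ℂ) = cA + cD - bc := by
    apply Complex.ext <;> simp [hcA, hcD, hdx, hdy, hbc]
  have hlb : (l : ℝ) ≤ ‖cA + cD - bc‖ := by
    rw [← hdc]; exact lb_le_norm _ _
  set m2 : Nat := l - A.r with hm2d
  set m1 : Nat := l - (A.r + D.r) with hm1d
  have hm1pos : 0 < m1 := Nat.sub_pos_of_lt hm1
  have hm1R : (0 : ℝ) < (m1 : ℝ) := by exact_mod_cast hm1pos
  have hm1e : (m1 : ℝ) + (D.r : ℝ) = (m2 : ℝ) := by
    rw [hm1d, hm2d, Nat.cast_sub hm1.le, Nat.cast_sub (by omega)]; push_cast; ring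
  have hm2e : (m2 : ℝ) + (A.r : ℝ) ≤ ‖cA + cD - bc‖ := by
    have : (m2 : ℝ) = (l : ℝ) - (A.r : ℝ) := by rw [hm2d, Nat.cast_sub (by omega)]
    linarith
  have hm2R : (0 : ℝ) < (m2 : ℝ) := by linarith
  have hn2pos : 0 < ‖cA + cD - bc‖ := by linarith
  have hnsq : ((nsqN dx dy : Nat) : ℝ) = ‖cA + cD - bc‖ ^ 2 := by
    rw [← hdc]; exact nsqN_cast _ _
  have hnsqR : (0 : ℝ) < ((nsqN dx dy : Nat) : ℝ) := by rw [hnsq]; positivity
  have hnsqZ : (0 : Int) < ((nsqN dx dy : Nat) : Int) := by exact_mod_cast hnsqR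
  -- two point formula
  have tp := two_point (A := cA) (A' := A0 * SR) (D := cD) (D' := D0 * SR) (β := (b2 : ℝ))
    (α := A.r) (δ := D.r) (m1 := m1) (m2 := m2) h1 h2 hm1R hm1e.le hm2e
  rw [← hbc] at tp
  have eb : A0 * SR * (D0 * SR) / (A0 * SR + D0 * SR - bc)
      = A0 * D0 / (A0 + D0 - β) * SR := by
    have : bc = (β : ℂ) * SR := by rw [hbc, ← hβ]; push_cast; rfl
    rw [this]
    by_cases h0 : A0 + D0 - β = 0
    · have : A0 * (SR : ℂ) + D0 * SR - β * SR = 0 := by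
        rw [← add_mul, ← sub_mul, h0, zero_mul]
      rw [this, h0]; simp
    · have : A0 * (SR : ℂ) + D0 * SR - β * SR = (A0 + D0 - β) * SR := by ring
      rw [this]
      field_simp
  rw [eb] at tp
  have hnA : ‖cA‖ ≤ (nbN A.x A.y : ℝ) := norm_le_nb A.x A.y
  have hnD : ‖cD‖ ≤ (nbN D.x D.y : ℝ) := norm_le_nb D.x D.y
  have hnAm : ‖cA - bc‖ ≤ ((nbN (A.x - b2) A.y : Nat) : ℝ) := by
    have e : cA - bc = (⟨((A.x - b2 : Int) : ℝ), ((A.y : Int) : ℝ)⟩ : ℂ) := by
      apply Complex.ext <;> simp [hcA, hbc]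
    rw [e]; exact norm_le_nb _ _
  have hnDm : ‖cD - bc‖ ≤ ((nbN (D.x - b2) D.y : Nat) : ℝ) := by
    have e : cD - bc = (⟨((D.x - b2 : Int) : ℝ), ((D.y : Int) : ℝ)⟩ : ℂ) := by
      apply Complex.ext <;> simp [hcD, hbc]
    rw [e]; exact norm_le_nb _ _
  set T : Nat := (nbN A.x A.y + A.r) * (nbN (A.x - b2) A.y + A.r) * D.r
    + nbN D.x D.y * nbN (D.x - b2) D.y * A.r with hT
  have hm12 : 0 < m1 * m2 := by
    have : 0 < m2 := by exact_mod_cast hm2R
    exact Nat.mul_pos hm1pos this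
  have hTb : ((‖cA‖ + (A.r : ℝ)) * (‖cA - bc‖ + A.r) * D.r
      + ‖cD‖ * ‖cD - bc‖ * A.r) / ((m1 : ℝ) * m2) ≤ ((T / (m1 * m2) : Nat) : ℝ) + 1 := by
    refine le_trans ?_ (le_floor_add_one T (m1 * m2) hm12)
    rw [Nat.cast_mul m1 m2]
    apply div_le_div_of_nonneg_right _ (by positivity)
    rw [hT]
    simp only [Nat.cast_add, Nat.cast_mul]
    apply add_le_add
    · apply mul_le_mul_of_nonneg_right _ rD
      exact mul_le_mul (by linarith) (by linarith) (by positivity) (by positivity)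
    · apply mul_le_mul_of_nonneg_right _ rA
      exact mul_le_mul hnD hnDm (norm_nonneg _) (by positivity)
  -- rounding of the centre
  set px : Int := A.x * D.x - A.y * D.y with hpx
  set py : Int := A.x * D.y + A.y * D.x with hpy
  have e3 : ‖cA * cD / (cA + cD - bc) -
      (⟨(((px * dx + py * dy) / ((nsqN dx dy : Nat) : Int) : Int) : ℝ),
        (((py * dx - px * dy) / ((nsqN dx dy : Nat) : Int) : Int) : ℝ)⟩ : ℂ)‖ ≤ 2 := by
    have hprod : cA * cD = (⟨(px : ℝ), (py : ℝ)⟩ : ℂ) := by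
      apply Complex.ext
      · simp [hcA, hcD, hpx, Complex.mul_re]
      · simp [hcA, hcD, hpy, Complex.mul_im]
    have hq : cA * cD / (cA + cD - bc)
        = ((⟨(px : ℝ), (py : ℝ)⟩ : ℂ) * (starRingEnd ℂ) (cA + cD - bc))
          / ((((nsqN dx dy : Nat) : Int) : ℝ) : ℂ) := by
      have hcast : ((((nsqN dx dy : Nat) : Int) : ℝ) : ℂ) = ((‖cA + cD - bc‖ ^ 2 : ℝ) : ℂ) := by
        rw [← hnsq]; push_cast; rfl
      rw [hcast, hprod, div_eq_div_iff (norm_pos_iff.1 hn2pos)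
        (by exact_mod_cast (by positivity : ‖cA + cD - bc‖ ^ 2 ≠ 0))]
      rw [mul_assoc, mul_comm ((starRingEnd ℂ) (cA + cD - bc)), Complex.mul_conj,
        Complex.normSq_eq_norm_sq]
    rw [hq, ← hdc]
    apply norm_round_le
    · rw [Complex.div_ofReal_re]
      have : (((⟨(px : ℝ), (py : ℝ)⟩ : ℂ) *
          (starRingEnd ℂ) (⟨(dx : ℝ), (dy : ℝ)⟩ : ℂ))).re
          = ((px * dx + py * dy : Int) : ℝ) := by
        simp only [Complex.mul_re, Complex.conj_re, Complex.conj_im]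
        push_cast; ring
      rw [this]; exact floor_err _ _ hnsqZ
    · rw [Complex.div_ofReal_im]
      have : (((⟨(px : ℝ), (py : ℝ)⟩ : ℂ) *
          (starRingEnd ℂ) (⟨(dx : ℝ), (dy : ℝ)⟩ : ℂ))).im
          = ((py * dx - px * dy : Int) : ℝ) := by
        simp only [Complex.mul_im, Complex.conj_re, Complex.conj_im]
        push_cast; ring
      rw [this]; exact floor_err _ _ hnsqZ
  have e5 : A0 * D0 / (A0 + D0 - β) * SR -
      (⟨(((px * dx + py * dy) / ((nsqN dx dy : Nat) : Int) : Int) : ℝ),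
        (((py * dx - px * dy) / ((nsqN dx dy : Nat) : Int) : Int) : ℝ)⟩ : ℂ)
      = (A0 * D0 / (A0 + D0 - β) * SR - cA * cD / (cA + cD - bc))
        + (cA * cD / (cA + cD - bc) -
        (⟨(((px * dx + py * dy) / ((nsqN dx dy : Nat) : Int) : Int) : ℝ),
        (((py * dx - px * dy) / ((nsqN dx dy : Nat) : Int) : Int) : ℝ)⟩ : ℂ)) := by ring
  rw [e5]
  refine (norm_add_le _ _).trans ?_
  have h9 := tp.trans hTb
  rw [Nat.cast_add]
  have h3 : ((3 : Nat) : ℝ) = 3 := by norm_num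
  rw [h3]
  linarith

lemma mem_addN {a : ℂ} {A : CD} (n : ℕ) (hA : mem a A) : mem (a + n) (addN A n) := by
  intro h
  have h1 := hA h
  have e : (a + n) * (SR : ℂ) - (⟨((A.x + n * SZ : Int) : ℝ), ((A.y : Int) : ℝ)⟩ : ℂ)
      = a * (SR : ℂ) - ⟨(A.x : ℝ), (A.y : ℝ)⟩ := by
    have hS : ((SZ : Int) : ℝ) = SR := SZ_cast
    apply Complex.ext
    · simp only [Complex.sub_re, Complex.mul_re, Complex.add_re, Complex.natCast_re,
        Complex.ofReal_re, Complex.add_im, Complex.natCast_im, Complex.ofReal_im]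
      push_cast
      rw [← hS]; push_cast; ring
    · simp only [Complex.sub_im, Complex.mul_im, Complex.add_re, Complex.natCast_re,
        Complex.ofReal_re, Complex.add_im, Complex.natCast_im, Complex.ofReal_im]
      ring
  simp only [addN]
  rw [e]
  exact h1

lemma mem_subR {a : ℂ} {A : CD} {b2 : Int} {β : ℝ} (hβ : β * SR = (b2 : ℝ)) (hA : mem a A) :
    mem (a - β) (subR A b2) := by
  intro h
  have h1 := hA h
  have e : (a - β) * (SR : ℂ) - (⟨((A.x - b2 : Int) : ℝ), ((A.y : Int) : ℝ)⟩ : ℂ)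
      = a * (SR : ℂ) - ⟨(A.x : ℝ), (A.y : ℝ)⟩ := by
    apply Complex.ext
    · simp only [Complex.sub_re, Complex.mul_re, Complex.ofReal_re, Complex.sub_im,
        Complex.ofReal_im]
      push_cast
      rw [← hβ]; ring
    · simp only [Complex.sub_im, Complex.mul_im, Complex.sub_re, Complex.ofReal_re,
        Complex.ofReal_im]
      ring
  simp only [subR]
  rw [e]
  exact h1

lemma mem_real {b2 : Int} {β : ℝ} (hβ : β * SR = (b2 : ℝ)) : mem (β : ℂ) ⟨b2, 0, 0, true⟩ := by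
  intro _
  have e : (β : ℂ) * (SR : ℂ) - (⟨((b2 : Int) : ℝ), ((0 : Int) : ℝ)⟩ : ℂ) = 0 := by
    apply Complex.ext
    · simp only [Complex.sub_re, Complex.mul_re, Complex.ofReal_re, Complex.ofReal_im,
        Complex.zero_re]
      rw [← hβ]; ring
    · simp
  rw [e]; simp

lemma mem_one : mem (1 : ℂ) ⟨SZ, 0, 0, true⟩ := by
  have := mem_real (b2 := SZ) (β := 1) (by rw [one_mul, SZ_cast])
  simpa using this

lemma startQ_ok {b2 : Int} {A : CD} (h : (startQ b2 A).ok = true) :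
    0 < (2 * (A.x - A.r) - b2) ∧ A.ok = true := by
  simp only [startQ, mul, add, sub, Bool.and_eq_true, Nat.blt_eq] at h
  have : 0 < (2 * (A.x - A.r) - b2).toNat := by tauto
  exact ⟨by omega, by tauto⟩

lemma mem_startQ {b2 : Int} {β : ℝ} (hβ : β * SR = (b2 : ℝ)) {A0 D0 : ℂ} {A : CD}
    (hA : mem A0 A) (hD : β / 2 ≤ D0.re) :
    mem (A0 * D0 / (A0 + D0 - β)) (startQ b2 A) := by
  intro h
  obtain ⟨hH, hAo⟩ := startQ_ok h
  have h1 := hA hAo
  have hS := SR_pos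
  set H2 : Nat := (2 * (A.x - A.r) - b2).toNat with hH2
  have hH2Z : (H2 : Int) = 2 * (A.x - A.r) - b2 := by omega
  have hHpos : 0 < H2 := by omega
  have hH2R : (0 : ℝ) < (H2 : ℝ) := by exact_mod_cast hHpos
  have hH2e : (H2 : ℝ) = 2 * ((A.x : ℝ) - A.r) - b2 := by
    have : ((H2 : Int) : ℝ) = ((2 * (A.x - A.r) - b2 : Int) : ℝ) := by rw [hH2Z]
    push_cast at this
    exact this
  -- real part of the denominator
  have hre : (A.x : ℝ) - A.r ≤ A0.re * SR := by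
    have := (Complex.abs_re_le_norm (A0 * (SR : ℂ) - (⟨(A.x : ℝ), (A.y : ℝ)⟩ : ℂ))).trans h1
    rw [Complex.sub_re, Complex.re_mul_ofReal] at this
    have := (abs_le.1 this).1
    simp only at this
    linarith
  set den : ℂ := A0 + D0 - β with hden
  set hh : ℝ := (H2 : ℝ) / (2 * SR) with hhd
  have hhpos : 0 < hh := by rw [hhd]; positivity
  have hdre : hh ≤ den.re := by
    rw [hhd, div_le_iff₀ (by positivity)]
    have : den.re = A0.re + D0.re - β := by simp [hden]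
    rw [this, hH2e]
    have h3 : β / 2 * SR ≤ D0.re * SR := mul_le_mul_of_nonneg_right hD hS.le
    nlinarith
  have hden0 : den ≠ 0 := by
    intro h0
    rw [h0] at hdre
    simp at hdre
    linarith
  -- the disc for `den⁻¹`
  set K : Nat := SN * SN / H2 + 1 with hK
  have hE : mem den⁻¹ ⟨(K : Int), 0, K, Nat.blt 0 H2⟩ := by
    intro _
    simp only
    have hKR : SR ^ 2 / (H2 : ℝ) ≤ (K : ℝ) := by
      have := le_floor_add_one (SN * SN) H2 hHpos
      have h4 : (((SN * SN : Nat)) : ℝ) = SR ^ 2 := by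
        rw [← SN_cast]; push_cast; ring
      rw [h4] at this
      rw [hK, Nat.cast_add, Nat.cast_one]; exact this
    have hKpos : (0 : ℝ) ≤ K := Nat.cast_nonneg _
    have hz : (⟨(((K : Nat) : Int) : ℝ), ((0 : Int) : ℝ)⟩ : ℂ) = ((K : ℝ) : ℂ) := by
      apply Complex.ext <;> simp
    rw [hz]
    apply (sq_le_sq₀ (norm_nonneg _) hKpos).1
    rw [← Complex.normSq_eq_norm_sq]
    -- |S/den - K|^2 ≤ K^2  iff  S^2/|den|^2 ≤ 2 K S Re(1/den)
    have hns : Complex.normSq (den⁻¹ * (SR : ℂ) - ((K : ℝ) : ℂ))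
        = Complex.normSq den⁻¹ * SR ^ 2 - 2 * K * SR * (den⁻¹).re + (K : ℝ) ^ 2 := by
      simp only [Complex.normSq_apply, Complex.sub_re, Complex.sub_im, Complex.mul_re,
        Complex.mul_im, Complex.ofReal_re, Complex.ofReal_im]
      ring
    rw [hns, Complex.inv_re, Complex.normSq_inv]
    have hn : 0 < Complex.normSq den := Complex.normSq_pos.2 hden0
    have h5 : (Complex.normSq den)⁻¹ * SR ^ 2 ≤ 2 * K * SR * (den.re / Complex.normSq den) := by
      rw [inv_mul_eq_div, mul_div_assoc', div_le_div_iff_of_pos_right hn]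
      have h6 : SR ^ 2 ≤ (K : ℝ) * H2 := by
        rw [div_le_iff₀ hH2R] at hKR; exact hKR
      have h7 : (H2 : ℝ) ≤ 2 * SR * den.re := by
        rw [hhd, div_le_iff₀ (by positivity)] at hdre
        linarith
      calc SR ^ 2 ≤ (K : ℝ) * H2 := h6
        _ ≤ (K : ℝ) * (2 * SR * den.re) := mul_le_mul_of_nonneg_left h7 hKpos
        _ = 2 * K * SR * den.re := by ring
    linarith
  have e : A0 * D0 / den = A0 * (1 + ((β : ℂ) - A0) * den⁻¹) := by
    have : D0 = den + ((β : ℂ) - A0) := by rw [hden]; ring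
    rw [this]
    field_simp
  rw [e]
  exact mem_mul hA (mem_add mem_one (mem_mul (mem_sub (mem_real hβ) hA) hE)) h

/-- The ladder relation. -/
structure Ladder (a : ℂ) (ρ β : ℝ) (q : ℕ → ℂ) : Prop where
  re : ∀ n, 3 ≤ n → β / 2 ≤ (q n).re
  step : ∀ n, 3 ≤ n → q n * (a + n + (q (n + 1) - I * ρ) - β) = (a + n) * (q (n + 1) - I * ρ)

lemma stepD_den {b2 : Int} {β : ℝ} (hβ : β * SR = (b2 : ℝ)) {A0 D0 : ℂ} {A D : CD}
    (hA : mem A0 A) (hD : mem D0 D) (h : (stepD b2 A D).ok = true) : A0 + D0 - β ≠ 0 := by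
  simp only [stepD, Bool.and_eq_true, Nat.blt_eq] at h
  obtain ⟨hAo, hDo, hm1⟩ := h
  have h1 := hA hAo
  have h2 := hD hDo
  intro h0
  set cA : ℂ := ⟨(A.x : ℝ), (A.y : ℝ)⟩ with hcA
  set cD : ℂ := ⟨(D.x : ℝ), (D.y : ℝ)⟩ with hcD
  have hdc : (⟨((A.x + D.x - b2 : Int) : ℝ), ((A.y + D.y : Int) : ℝ)⟩ : ℂ)
      = cA + cD - ((b2 : ℝ) : ℂ) := by
    apply Complex.ext <;> simp [hcA, hcD]
  have hlb := lb_le_norm (A.x + D.x - b2) (A.y + D.y)
  rw [hdc] at hlb
  have e : cA + cD - ((b2 : ℝ) : ℂ) = -((A0 * SR - cA) + (D0 * SR - cD)) := by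
    have : (A0 + D0 - β) * (SR : ℂ) = 0 := by rw [h0, zero_mul]
    have hb : ((b2 : ℝ) : ℂ) = (β : ℂ) * SR := by rw [← hβ]; push_cast; rfl
    rw [hb]
    linear_combination this
  rw [e, norm_neg] at hlb
  have h3 := hlb.trans ((norm_add_le _ _).trans (add_le_add h1 h2))
  have h4 : ((A.r + D.r : Nat) : ℝ) < ((lbN (A.x + D.x - b2) (A.y + D.y) : Nat) : ℝ) := by
    exact_mod_cast hm1
  push_cast at h4
  linarith

lemma mem_lad {b2 : Int} {β ρ : ℝ} {a : ℂ} (hβ : β * SR = (b2 : ℝ)) {q : ℕ → ℂ}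
    (hq : Ladder a ρ β q) {irho a0 : CD} (hρ : mem (I * ρ) irho) (ha : mem a a0) (n0 : ℕ)
    (hn0 : 3 ≤ n0) : ∀ (k : ℕ) (Q : CD), mem (q (n0 + k)) Q →
      mem (q n0) (lad b2 irho a0 n0 k Q) := by
  intro k
  induction k with
  | zero => intro Q h; simpa [lad] using h
  | succ k ih =>
    intro Q h
    rw [lad]
    apply ih
    intro hok
    have hD : mem (q (n0 + (k + 1)) - I * ρ) (sub Q irho) := mem_sub h hρ
    have hA : mem (a + ((n0 + k : ℕ) : ℂ)) (addN a0 (n0 + k)) := mem_addN _ ha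
    have hden := stepD_den hβ hA hD hok
    have hrec := hq.step (n0 + k) (by omega)
    have : q (n0 + k) = (a + ((n0 + k : ℕ) : ℂ)) * (q (n0 + (k + 1)) - I * ρ)
        / (a + ((n0 + k : ℕ) : ℂ) + (q (n0 + (k + 1)) - I * ρ) - β) := by
      rw [eq_div_iff hden]
      exact hrec
    rw [this]
    exact mem_stepD hβ hA hD hok

/-- full ladder: start at the half plane for `q_{n0+k+1}` -/
lemma mem_ladder {b2 : Int} {β ρ : ℝ} {a : ℂ} (hβ : β * SR = (b2 : ℝ)) {q : ℕ → ℂ}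
    (hq : Ladder a ρ β q) {irho a0 : CD} (hρ : mem (I * ρ) irho) (ha : mem a a0) (n0 : ℕ)
    (hn0 : 3 ≤ n0) (k : ℕ) :
      mem (q n0) (lad b2 irho a0 n0 k (startQ b2 (addN a0 (n0 + k)))) := by
  apply mem_lad hβ hq hρ ha n0 hn0
  intro hok
  have hA : mem (a + ((n0 + k : ℕ) : ℂ)) (addN a0 (n0 + k)) := mem_addN _ ha
  have hre := hq.re (n0 + k + 1) (by omega)
  have hD : β / 2 ≤ (q (n0 + k + 1) - I * ρ).re := by simpa using hre
  have hrec := hq.step (n0 + k) (by omega)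
  -- the denominator does not vanish
  have hden : a + ((n0 + k : ℕ) : ℂ) + (q (n0 + k + 1) - I * ρ) - β ≠ 0 := by
    obtain ⟨hH, hAo⟩ := startQ_ok hok
    have h1 := hA hAo
    have h2 := (Complex.abs_re_le_norm _).trans h1
    rw [Complex.sub_re, Complex.re_mul_ofReal] at h2
    have h3 := (abs_le.1 h2).1
    simp only at h3
    intro h0
    have h4 := congrArg Complex.re h0
    rw [Complex.sub_re, Complex.add_re, Complex.ofReal_re, Complex.zero_re] at h4
    have hHR : (0 : ℝ) < ((2 * ((addN a0 (n0 + k)).x - (addN a0 (n0 + k)).r) - b2 : Int) : ℝ) := by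
      exact_mod_cast hH
    push_cast at hHR
    rw [← hβ] at hHR
    have hS := SR_pos
    set u : ℝ := (a + ((n0 + k : ℕ) : ℂ)).re
    have h5 : 0 < (2 * u - β) * SR := by nlinarith
    have h6 : 0 < 2 * u - β := by
      by_contra hc
      push Not at hc
      nlinarith
    linarith
  have : q (n0 + k) = (a + ((n0 + k : ℕ) : ℂ)) * (q (n0 + k + 1) - I * ρ)
      / (a + ((n0 + k : ℕ) : ℂ) + (q (n0 + k + 1) - I * ρ) - β) := by
    rw [eq_div_iff hden]
    exact hrec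
  rw [this]
  exact mem_startQ hβ hA hD hok

end Vale.Agent.P139.H472
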